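import Mathlib.Algebra.MvPolynomial.Rename
import Mathlib.Algebra.MvPolynomial.CommRing
import Mathlib.Algebra.Polynomial.AlgebraMap
import Mathlib.Data.Complex.Basic
import Mathlib.Algebra.Polynomial.Roots

/-!
Definitions used by the statements about stable coordinates and cancellation.
-/

namespace Vale.Agent.P295

open MvPolynomial

variable {τ : Type}

/-- `f` is sent to one of the variables by an algebra automorphism. -/
def IsCoordinate {σ : Type} (f : MvPolynomial σ ℂ) : Prop :=
  ∃ (φ : MvPolynomial σ ℂ ≃ₐ[ℂ] MvPolynomial σ ℂ) (i : σ), φ f = X i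

/-- `f` becomes a coordinate after adjoining `m ≥ 1` new variables, for some `m`. -/
def IsStableCoordinate {n : ℕ} (f : MvPolynomial (Fin n) ℂ) : Prop :=
  ∃ m : ℕ, 1 ≤ m ∧ IsCoordinate (rename (Sum.inl : Fin n → Fin n ⊕ Fin m) f)

/-- The value at a parameter. -/
noncomputable def spec (c : ℂ) : MvPolynomial (Option τ) ℂ →ₐ[ℂ] MvPolynomial τ ℂ :=
  aeval fun o => o.elim (C c) X

/-- A polynomial in the parameter. -/
noncomputable def toPar : Polynomial ℂ →ₐ[ℂ] MvPolynomial (Option τ) ℂ :=
  Polynomial.aeval (X none)

/-- The squarefree polynomial with the given roots. -/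
noncomputable def rootPoly (S : Finset ℂ) : Polynomial ℂ :=
  ∏ c ∈ S, (Polynomial.X - Polynomial.C c)

/-- `a(x) y + b(x, z)` with `a = κ ∏ (x - c)`; the variables are `none` for `y`, `some none` for
`x` and `some (some t)` for the `z`s. -/
noncomputable def linearExt (κ : ℂ) (S : Finset ℂ) (b : MvPolynomial (Option τ) ℂ) :
    MvPolynomial (Option (Option τ)) ℂ :=
  C κ * rename some (toPar (rootPoly S)) * X none + rename some b

/-- `a(x) y + b(x, z)`; the variables are `none` for `y`, `some none` for `x` and
`some (some t)` for the `z`s. -/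
noncomputable def linExt (a : Polynomial ℂ) (b : MvPolynomial (Option τ) ℂ) :
    MvPolynomial (Option (Option τ)) ℂ :=
  rename some (toPar a) * X none + rename some b

/-- The class generated by polynomials of degree at most two and polynomials in at most one
variable, by linear extensions with squarefree coefficient whose values at the roots are in the
class, by renaming of the variables and by polynomial automorphisms. -/
inductive Nested : ∀ {σ : Type}, MvPolynomial σ ℂ → Prop
  | quadratic {σ : Type} [Fintype σ] (f : MvPolynomial σ ℂ) (h : f.totalDegree ≤ 2) : Nested f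
  | univariate {σ : Type} [Fintype σ] [Subsingleton σ] (f : MvPolynomial σ ℂ) : Nested f
  | linear {τ : Type} [Fintype τ] (κ : ℂ) (hκ : κ ≠ 0) (S : Finset ℂ)
      (b : MvPolynomial (Option τ) ℂ) (hb : ∀ c ∈ S, Nested (spec c b)) :
      Nested (linearExt κ S b)
  | reindex {σ σ' : Type} (e : σ ≃ σ') (f : MvPolynomial σ ℂ) (h : Nested f) :
      Nested (rename e f)
  | change {σ : Type} [Fintype σ] (φ : MvPolynomial σ ℂ ≃ₐ[ℂ] MvPolynomial σ ℂ)
      (f : MvPolynomial σ ℂ) (h : Nested f) : Nested (φ f)

/-- The class generated by polynomials of degree at most two, by linear extensions with any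
nonzero coefficient whose values at the roots are in the class, by sums in disjoint variables,
by renaming of the variables and by polynomial automorphisms. -/
inductive Tower : ∀ {σ : Type}, MvPolynomial σ ℂ → Prop
  | quadratic {σ : Type} [Fintype σ] (f : MvPolynomial σ ℂ) (h : f.totalDegree ≤ 2) : Tower f
  | linear {τ : Type} [Fintype τ] (a : Polynomial ℂ) (ha : a ≠ 0)
      (b : MvPolynomial (Option τ) ℂ) (hb : ∀ c, a.IsRoot c → Tower (spec c b)) :
      Tower (linExt a b)
  | disjointSum {σ τ : Type} [Fintype σ] [Fintype τ] (f : MvPolynomial σ ℂ)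
      (g : MvPolynomial τ ℂ) (hf : Tower f) (hg : Tower g) :
      Tower (rename Sum.inl f + rename Sum.inr g)
  | reindex {σ σ' : Type} [Fintype σ] (e : σ ≃ σ') (f : MvPolynomial σ ℂ) (h : Tower f) :
      Tower (rename e f)
  | change {σ : Type} [Fintype σ] (φ : MvPolynomial σ ℂ ≃ₐ[ℂ] MvPolynomial σ ℂ)
      (f : MvPolynomial σ ℂ) (h : Tower f) : Tower (φ f)

end Vale.Agent.P295
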