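import Mathlib.Algebra.MvPolynomial.PDeriv
import Mathlib.Algebra.MvPolynomial.Funext
import Mathlib.Algebra.MvPolynomial.Rename
import Mathlib.Algebra.MvPolynomial.Variables
import Mathlib.LinearAlgebra.Dual.Lemmas
import Mathlib.LinearAlgebra.Pi
import Mathlib.Tactic.LinearCombination
import Mathlib.Data.Complex.Basic
import Mathlib.Algebra.CharZero.Infinite
import Vale.Agent.P295.Defs

namespace Vale.Agent.P295

open MvPolynomial

variable {σ τ : Type} [Fintype σ]

theorem chain_rule (g : σ → MvPolynomial τ ℂ) (s : τ) (p : MvPolynomial σ ℂ) :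
    pderiv s (aeval g p) = ∑ i, aeval g (pderiv i p) * pderiv s (g i) := by
  induction p using MvPolynomial.induction_on with
  | C a => simp
  | add p q hp hq => simp [hp, hq, add_mul, Finset.sum_add_distrib]
  | mul_X p i hp =>
    classical
    simp [hp, pderiv_X, Pi.single_apply, add_mul, Finset.sum_add_distrib, Finset.mul_sum,
      apply_ite (aeval g), ite_mul, mul_comm, add_comm, mul_assoc]

theorem eq_zero_of_totalDegree_le_one (L : MvPolynomial σ ℂ) (hL : L.totalDegree ≤ 1) :
    L = C (coeff 0 L) + ∑ k, C (coeff (Finsupp.single k 1) L) * X k := by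
  classical
  ext d
  simp only [coeff_add, coeff_C, coeff_sum, coeff_C_mul, coeff_X]
  by_cases h0 : d = 0
  · subst h0
    simp
  · rw [if_neg (Ne.symm h0), zero_add]
    by_cases h1 : ∃ k, d = Finsupp.single k 1
    · obtain ⟨k, rfl⟩ := h1
      simp [Finsupp.single_eq_single_iff]
    · have hz : coeff d L = 0 := by
        by_contra hne
        have hdeg : (d.sum fun _ e => e) ≤ 1 :=
          le_trans (le_totalDegree (mem_support_iff.2 hne)) hL
        obtain ⟨k, hk⟩ : ∃ k, d k ≠ 0 := by
          by_contra! hall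
          exact h0 (Finsupp.ext hall)
        apply h1
        refine ⟨k, Finsupp.ext fun l => ?_⟩
        rw [Finsupp.sum_fintype _ _ (fun _ => rfl)] at hdeg
        by_cases hl : l = k
        · subst hl
          simp
          have := Finset.single_le_sum (f := fun e => d e) (fun _ _ => Nat.zero_le _)
            (Finset.mem_univ l)
          omega
        · have h2 : d k + d l ≤ ∑ e, d e := by
            calc d k + d l = ∑ e ∈ ({k, l} : Finset σ), d e := by
                  rw [Finset.sum_pair (Ne.symm hl)]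
              _ ≤ _ := Finset.sum_le_sum_of_subset (Finset.subset_univ _)
          simp [Ne.symm hl]
          omega
      rw [hz, eq_comm]
      refine Finset.sum_eq_zero fun k _ => ?_
      rw [if_neg (fun h => h1 ⟨k, h.symm⟩), mul_zero]

omit [Fintype σ] in
theorem totalDegree_pderiv_le_one {f : MvPolynomial σ ℂ} (hf : f.totalDegree ≤ 2) (i : σ) :
    (pderiv i f).totalDegree ≤ 1 := by
  classical
  rw [totalDegree]
  refine Finset.sup_le fun d hd => ?_
  rw [mem_support_iff, coeff_pderiv] at hd
  have hd' : coeff (d + Finsupp.single i 1) f ≠ 0 := fun h => hd (by simp [h])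
  have := le_trans (le_totalDegree (mem_support_iff.2 hd')) hf
  rw [Finsupp.sum_add_index' (fun _ => rfl) (fun _ _ _ => rfl),
    Finsupp.sum_single_index rfl] at this
  omega

theorem exists_direction {f : MvPolynomial σ ℂ} (hf : f.totalDegree ≤ 2)
    (hsm : ∀ a : σ → ℂ, ∃ i, eval a (pderiv i f) ≠ 0) :
    ∃ v : σ → ℂ, ∑ i, C (v i) * pderiv i f = 1 := by
  classical
  let A : (σ → ℂ) →ₗ[ℂ] (σ → ℂ) :=
    LinearMap.pi fun i => ∑ k, coeff (Finsupp.single k 1) (pderiv i f) • LinearMap.proj k
  let b : σ → ℂ := fun i => coeff 0 (pderiv i f)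
  have heval : ∀ a i, eval a (pderiv i f) = b i + A a i := by
    intro a i
    conv_lhs => rw [eq_zero_of_totalDegree_le_one _ (totalDegree_pderiv_le_one hf i)]
    simp [A, b]
  have hb : b ∉ LinearMap.range A := by
    rintro ⟨a, ha⟩
    obtain ⟨i, hi⟩ := hsm (-a)
    apply hi
    rw [heval, map_neg, ha]
    simp
  obtain ⟨φ, hφb, hφ⟩ :=
    Submodule.exists_dual_map_eq_bot_of_notMem hb inferInstance
  refine ⟨fun i => (φ b)⁻¹ * φ (Pi.single i 1), MvPolynomial.funext fun a => ?_⟩
  have hA : φ (A a) = 0 := by
    have : φ (A a) ∈ (LinearMap.range A).map φ :=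
      Submodule.mem_map_of_mem (LinearMap.mem_range_self A a)
    rw [hφ] at this
    simpa using this
  have hdecomp : ∀ w : σ → ℂ, ∑ i, φ (Pi.single i 1) * w i = φ w := by
    intro w
    conv_rhs => rw [pi_eq_sum_univ' w]
    simp [map_sum, mul_comm]
  have : ∑ i, φ (Pi.single i 1) * (b i + A a i) = φ b := by
    rw [hdecomp (fun i => b i + A a i)]
    change φ (b + A a) = φ b
    rw [map_add, hA, add_zero]
  simp only [map_sum, map_mul, eval_C, map_one, heval, mul_assoc]
  rw [← Finset.mul_sum, this, inv_mul_cancel₀ hφb]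

omit [Fintype σ] in
theorem notMem_vars_of_pderiv_eq_zero {k : MvPolynomial σ ℂ} {j : σ} (h : pderiv j k = 0) :
    j ∉ k.vars := by
  classical
  intro hj
  obtain ⟨d, hd, hdj⟩ := (mem_vars_iff_mem_support (i := j)).1 hj
  have h1 : 1 ≤ d j := Nat.one_le_iff_ne_zero.2 (by simpa using hdj)
  have := congrArg (coeff (d - Finsupp.single j 1)) h
  rw [coeff_pderiv, coeff_zero] at this
  have he : d - Finsupp.single j 1 + Finsupp.single j 1 = d :=
    tsub_add_cancel_of_le (Finsupp.single_le_iff.2 h1)
  rw [he] at this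
  rcases mul_eq_zero.1 this with h2 | h2
  · exact mem_support_iff.1 hd h2
  · exact Nat.cast_add_one_ne_zero _ h2

/-- A polynomial with a constant nonzero directional derivative is a coordinate. -/
theorem isCoordinate_of_direction {f : MvPolynomial σ ℂ} {v : σ → ℂ}
    (hv : ∑ i, C (v i) * pderiv i f = 1) : IsCoordinate f := by
  classical
  obtain ⟨j, hj⟩ : ∃ j, v j ≠ 0 := by
    by_contra! hall
    simp [hall] at hv
  let g : σ → MvPolynomial σ ℂ := fun i => if i = j then C (v j) * X j else X i + C (v i) * X j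
  let g' : σ → MvPolynomial σ ℂ := fun i =>
    if i = j then C (v j)⁻¹ * X j else X i - C (v i * (v j)⁻¹) * X j
  have hinv : C (v j) * C (v j)⁻¹ = (1 : MvPolynomial σ ℂ) := by
    rw [← map_mul, mul_inv_cancel₀ hj, map_one]
  have e1 : ∀ i, aeval g (g' i) = X i := by
    intro i
    by_cases h : i = j
    · subst h
      simp only [g, g', ↓reduceIte, map_mul, aeval_C, aeval_X, algebraMap_eq]
      linear_combination X i * hinv
    · simp only [g, g', h, ↓reduceIte, map_sub, map_mul, aeval_C, aeval_X, algebraMap_eq]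
      linear_combination (-(C (v i) * X j)) * hinv
  have e2 : ∀ i, aeval g' (g i) = X i := by
    intro i
    by_cases h : i = j
    · subst h
      simp only [g, g', ↓reduceIte, map_mul, aeval_C, aeval_X, algebraMap_eq]
      linear_combination X i * hinv
    · simp only [g, g', h, ↓reduceIte, map_add, map_mul, aeval_C, aeval_X, algebraMap_eq]
      ring
  let ψ : MvPolynomial σ ℂ ≃ₐ[ℂ] MvPolynomial σ ℂ :=
    AlgEquiv.ofAlgHom (aeval g) (aeval g')
      (algHom_ext fun i => by simp [e1])
      (algHom_ext fun i => by simp [e2])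
  have hdg : ∀ i, pderiv j (g i) = C (v i) := by
    intro i
    by_cases h : i = j
    · subst h; simp [g]
    · simp [g, h, pderiv_X_of_ne h]
  have hψ : pderiv j (ψ f) = 1 := by
    change pderiv j (aeval g f) = 1
    rw [chain_rule]
    have := congrArg (aeval g) hv
    simp only [map_sum, map_mul, aeval_C, map_one] at this
    simp only [hdg]
    rw [← this]
    exact Finset.sum_congr rfl fun i _ => by rw [mul_comm]; rfl
  set k := ψ f - X j with hk
  have hk0 : pderiv j k = 0 := by simp [hk, hψ]
  have hkv : j ∉ k.vars := notMem_vars_of_pderiv_eq_zero hk0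
  have fixk : ∀ w : MvPolynomial σ ℂ, aeval (Function.update X j w) k = k := by
    intro w
    conv_rhs => rw [← aeval_X_left_apply k]
    refine hom_congr_vars (f₁ := (aeval (Function.update X j w)).toRingHom)
      (f₂ := (aeval (X : σ → MvPolynomial σ ℂ)).toRingHom) ?_ ?_ rfl
    · ext a
      · simp
    · intro i hi _
      have : i ≠ j := fun h => hkv (h ▸ hi)
      simp [this]
  let β : MvPolynomial σ ℂ ≃ₐ[ℂ] MvPolynomial σ ℂ :=
    AlgEquiv.ofAlgHom (aeval (Function.update X j (X j + k)))
      (aeval (Function.update X j (X j - k)))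
      (algHom_ext fun i => by
        by_cases h : i = j
        · subst h; simp [fixk]
        · simp [h])
      (algHom_ext fun i => by
        by_cases h : i = j
        · subst h; simp [fixk]
        · simp [h])
  refine ⟨ψ.trans β.symm, j, ?_⟩
  rw [AlgEquiv.trans_apply, AlgEquiv.symm_apply_eq]
  change ψ f = aeval _ (X j)
  simp [hk]

theorem exists_pderiv_ne_zero_of_stable {n : ℕ} {f : MvPolynomial (Fin n) ℂ}
    (h : IsStableCoordinate f) (a : Fin n → ℂ) : ∃ i, eval a (pderiv i f) ≠ 0 := by
  classical
  obtain ⟨m, -, φ, s, hs⟩ := h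
  by_contra! hcrit
  set F := rename (Sum.inl : Fin n → Fin n ⊕ Fin m) f
  have hφ : ∀ p, φ p = aeval (fun t => φ (X t)) p := fun p =>
    DFunLike.congr_fun (aeval_unique φ.toAlgHom) p
  have h1 : ∑ t, φ (pderiv t F) * pderiv s (φ (X t)) = 1 := by
    have := chain_rule (fun t => φ (X t)) s F
    simp only [← hφ, hs, pderiv_X_self] at this
    exact this.symm
  have h2 := congrArg (fun q => eval (Sum.elim a 0) (φ.symm q)) h1
  simp only [map_sum, map_mul, map_one, AlgEquiv.symm_apply_apply] at h2
  have hz : ∀ t, eval (Sum.elim a 0) (pderiv t F) = 0 := by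
    rintro (i | i)
    · rw [pderiv_rename Sum.inl_injective, eval_rename]
      simpa using hcrit i
    · rw [pderiv_eq_zero_of_notMem_vars]
      · simp
      · intro hi
        obtain ⟨x, -, hx⟩ := Finset.mem_image.1 (vars_rename Sum.inl f hi)
        cases hx
  simp [hz] at h2

end Vale.Agent.P295
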