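import Vale.Agent.P295.Coordinates
import Mathlib.Algebra.Polynomial.AlgebraMap
import Mathlib.Algebra.Polynomial.Roots
import Mathlib.LinearAlgebra.Lagrange
import Mathlib.LinearAlgebra.Matrix.NonsingularInverse
import Mathlib.RingTheory.Coprime.Lemmas

/-!
Interpolation of automorphisms over finitely many values of a parameter, and coordinates of the
form `a(x) y + b(x, z)` with `a` squarefree.
-/

namespace Vale.Agent.P295

open MvPolynomial

variable {σ σ' τ : Type}

/-- No critical point. -/
def NoCritical (f : MvPolynomial σ ℂ) : Prop :=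
  ∀ p : σ → ℂ, ∃ i, eval p (pderiv i f) ≠ 0

theorem isCoordinate_of_equiv {f : MvPolynomial σ ℂ}
    (e : MvPolynomial σ ℂ ≃ₐ[ℂ] MvPolynomial σ ℂ) (h : IsCoordinate (e f)) : IsCoordinate f := by
  obtain ⟨φ, i, hi⟩ := h
  exact ⟨e.trans φ, i, by simpa using hi⟩

theorem isCoordinate_rename (e : σ ≃ σ') {f : MvPolynomial σ ℂ} (h : IsCoordinate f) :
    IsCoordinate (rename e f) := by
  obtain ⟨φ, i, hi⟩ := h
  refine ⟨((renameEquiv ℂ e).symm.trans φ).trans (renameEquiv ℂ e), e i, ?_⟩
  have h1 : (renameEquiv ℂ e).symm (rename e f) = f := by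
    rw [AlgEquiv.symm_apply_eq]
    rfl
  simp only [AlgEquiv.trans_apply, h1, hi]
  exact rename_X e i

theorem aeval_const_zero {R : Type} [CommRing R] [Algebra ℂ R] (p : MvPolynomial σ ℂ) :
    aeval (fun _ => (0 : R)) p = algebraMap ℂ R (constantCoeff p) := by
  induction p using MvPolynomial.induction_on with
  | C a => simp
  | add p q hp hq => simp [hp, hq]
  | mul_X p i hp => simp

/-- Automorphisms with the identity as affine part at the origin. -/
def Normalised (θ : MvPolynomial τ ℂ →ₐ[ℂ] MvPolynomial τ ℂ) : Prop :=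
  ∀ s, constantCoeff (θ (X s)) = 0 ∧
    ∀ l, constantCoeff (pderiv l (θ (X s))) = constantCoeff (pderiv l (X s : MvPolynomial τ ℂ))

theorem apply_eq_aeval (θ : MvPolynomial τ ℂ →ₐ[ℂ] MvPolynomial σ ℂ) (p : MvPolynomial τ ℂ) :
    θ p = aeval (fun t => θ (X t)) p :=
  DFunLike.congr_fun (aeval_unique θ) p

theorem equiv_apply_eq_aeval (θ : MvPolynomial τ ℂ ≃ₐ[ℂ] MvPolynomial σ ℂ)
    (p : MvPolynomial τ ℂ) : θ p = aeval (fun t => θ (X t)) p :=
  apply_eq_aeval θ.toAlgHom p

theorem constantCoeff_apply (θ : MvPolynomial τ ℂ →ₐ[ℂ] MvPolynomial τ ℂ)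
    (h : ∀ s, constantCoeff (θ (X s)) = 0) (p : MvPolynomial τ ℂ) :
    constantCoeff (θ p) = constantCoeff p := by
  induction p using MvPolynomial.induction_on with
  | C a => simp
  | add p q hp hq => simp [hp, hq]
  | mul_X p i hp => simp [h]

theorem Normalised.symm [Fintype τ] (θ : MvPolynomial τ ℂ ≃ₐ[ℂ] MvPolynomial τ ℂ)
    (h : Normalised θ.toAlgHom) : Normalised θ.symm.toAlgHom := by
  classical
  intro s
  have h0 : ∀ s, constantCoeff (θ (X s)) = 0 := fun s => (h s).1
  have hcc : ∀ p, constantCoeff (θ p) = constantCoeff p := constantCoeff_apply θ.toAlgHom h0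
  refine ⟨?_, fun l => ?_⟩
  · show constantCoeff (θ.symm (X s)) = 0
    rw [← hcc, θ.apply_symm_apply, constantCoeff_X]
  · show constantCoeff (pderiv l (θ.symm (X s))) = constantCoeff (pderiv l (X s))
    have e := chain_rule (fun t => θ (X t)) l (θ.symm (X s))
    rw [← equiv_apply_eq_aeval θ] at e
    have e1 : θ (θ.symm (X s)) = X s := θ.apply_symm_apply _
    rw [e1] at e
    conv_rhs => rw [e]
    rw [map_sum, Finset.sum_eq_single l]
    · rw [map_mul, ← equiv_apply_eq_aeval θ, hcc,
        show θ (X l) = θ.toAlgHom (X l) from rfl, (h l).2 l, pderiv_X_self, map_one, mul_one]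
    · intro k _ hk
      rw [map_mul, show θ (X k) = θ.toAlgHom (X k) from rfl, (h k).2 l, pderiv_X_of_ne hk,
        map_zero, mul_zero]
    · simp

/-- A coordinate is an affine form after a normalised automorphism. -/
theorem exists_normal [Fintype τ] {g : MvPolynomial τ ℂ} (hg : IsCoordinate g) :
    ∃ (θ : MvPolynomial τ ℂ ≃ₐ[ℂ] MvPolynomial τ ℂ) (β : ℂ) (α : τ → ℂ),
      Normalised θ.toAlgHom ∧ α ≠ 0 ∧ θ (C β + ∑ t, C (α t) * X t) = g := by
  classical
  obtain ⟨φ, i, hi⟩ := hg
  set ψ := φ.symm with hψ
  let J : τ → τ → ℂ := fun k s => constantCoeff (pderiv s (ψ (X k)))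
  let M : τ → τ → ℂ := fun i k => constantCoeff (ψ (pderiv k (φ (X i))))
  let tv : τ → ℂ := fun k => constantCoeff (ψ (X k))
  have hMJ : ∀ a s, ∑ k, M a k * J k s = if a = s then 1 else 0 := by
    intro a s
    have e := chain_rule (fun k => ψ (X k)) s (φ (X a))
    simp only [← equiv_apply_eq_aeval ψ] at e
    have e1 : ψ (φ (X a)) = X a := φ.symm_apply_apply _
    rw [e1, pderiv_X] at e
    have e2 := congrArg constantCoeff e
    rw [map_sum] at e2
    simp only [map_mul, Pi.single_apply] at e2
    rw [show (∑ k, M a k * J k s) = _ from e2.symm]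
    rcases eq_or_ne a s with rfl | hne
    · simp
    · simp [hne, Ne.symm hne]
  have hJM : ∀ k j, ∑ t, J k t * M t j = if k = j then 1 else 0 := by
    have h1 : Matrix.of M * Matrix.of J = 1 := Matrix.ext fun a s => by
      simp [Matrix.mul_apply, Matrix.one_apply, hMJ]
    have h2 : Matrix.of J * Matrix.of M = 1 := mul_eq_one_comm.1 h1
    intro k j
    simpa [Matrix.mul_apply, Matrix.one_apply] using congrFun (congrFun h2 k) j
  let A : τ → MvPolynomial τ ℂ := fun k => C (tv k) + ∑ s, C (J k s) * X s
  let A' : τ → MvPolynomial τ ℂ := fun s => ∑ k, C (M s k) * (X k - C (tv k))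
  have e1 : ∀ s, aeval A (A' s) = X s := by
    intro s
    calc aeval A (A' s) = ∑ k, C (M s k) * ∑ t, C (J k t) * X t := by simp [A', A]
      _ = ∑ t, C (∑ k, M s k * J k t) * X t := by
        simp only [map_sum, map_mul, Finset.sum_mul, Finset.mul_sum]
        rw [Finset.sum_comm]
        simp only [mul_assoc]
      _ = X s := by simp [hMJ]
  have e2 : ∀ k, aeval A' (A k) = X k := by
    intro k
    calc aeval A' (A k) = C (tv k) + ∑ t, C (J k t) * ∑ j, C (M t j) * (X j - C (tv j)) := by
          simp [A', A]
      _ = C (tv k) + ∑ j, C (∑ t, J k t * M t j) * (X j - C (tv j)) := by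
        simp only [map_sum, map_mul, Finset.sum_mul, Finset.mul_sum]
        rw [Finset.sum_comm]
        simp only [mul_assoc]
      _ = X k := by simp [hJM]
  let E : MvPolynomial τ ℂ ≃ₐ[ℂ] MvPolynomial τ ℂ :=
    AlgEquiv.ofAlgHom (aeval A') (aeval A) (algHom_ext fun k => by simp [e2])
      (algHom_ext fun k => by simp [e1])
  have hE : ∀ s, ψ (E (X s)) = ∑ k, C (M s k) * (ψ (X k) - C (tv k)) := by
    intro s
    have hC : ∀ a, ψ (C a) = C a := fun a => ψ.commutes a
    rw [show E (X s) = A' s from aeval_X _ _]
    simp [A', hC]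
  refine ⟨E.trans ψ, tv i, J i, fun s => ⟨?_, fun l => ?_⟩, fun h => ?_, ?_⟩
  · show constantCoeff (ψ (E (X s))) = 0
    simp [hE, tv]
  · show constantCoeff (pderiv l (ψ (E (X s)))) = _
    rw [hE, map_sum, map_sum, pderiv_X, Pi.single_apply]
    simp only [pderiv_C_mul, map_sub, pderiv_C, sub_zero, map_mul, constantCoeff_C]
    rw [show (∑ k, M s k * constantCoeff (pderiv l (ψ (X k)))) = _ from hMJ s l]
    split_ifs <;> simp_all
  · have h1 := hJM i i
    simp [h] at h1
  · show ψ (E (A i)) = g
    have : E (A i) = X i := e2 i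
    rw [this, hψ, AlgEquiv.symm_apply_eq, hi]

section Base

theorem spec_toPar (c : ℂ) (q : Polynomial ℂ) :
    spec (τ := τ) c (toPar q) = C (q.eval c) := by
  induction q using Polynomial.induction_on' with
  | add q r hq hr => simp [hq, hr]
  | monomial n a => simp [toPar, spec, Polynomial.aeval_monomial, algebraMap_eq]

theorem spec_rename (c : ℂ) (p : MvPolynomial τ ℂ) : spec c (rename some p) = p := by
  rw [spec, aeval_rename]
  exact aeval_X_left_apply p

theorem dvd_sub_spec (c : ℂ) (p : MvPolynomial (Option τ) ℂ) :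
    X none - C c ∣ p - rename some (spec c p) := by
  induction p using MvPolynomial.induction_on with
  | C a => simp [spec]
  | add p q hp hq =>
    rw [map_add, map_add, add_sub_add_comm]
    exact dvd_add hp hq
  | mul_X p i hp =>
    cases i with
    | none =>
      have : p * X none - rename some (spec c (p * X none)) =
          (p - rename some (spec c p)) * X none + rename some (spec c p) * (X none - C c) := by
        simp [spec]
        ring
      rw [this]
      exact dvd_add (dvd_mul_of_dvd_left hp _) (dvd_mul_left _ _)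
    | some t =>
      have : p * X (some t) - rename some (spec c (p * X (some t))) =
          (p - rename some (spec c p)) * X (some t) := by
        simp [spec]
        ring
      rw [this]
      exact dvd_mul_of_dvd_left hp _

theorem dvd_of_forall_spec (S : Finset ℂ) :
    ∀ p : MvPolynomial (Option τ) ℂ, (∀ c ∈ S, spec c p = 0) → toPar (rootPoly S) ∣ p := by
  classical
  induction S using Finset.induction_on with
  | empty =>
    intro p _
    simp [rootPoly]
  | @insert c S hc ih =>
    intro p hp
    obtain ⟨r, hr⟩ := ih p fun d hd => hp d (Finset.mem_insert_of_mem hd)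
    have h1 := hp c (Finset.mem_insert_self c S)
    rw [hr, map_mul, spec_toPar, mul_eq_zero] at h1
    have hne : C ((rootPoly S).eval c) ≠ (0 : MvPolynomial τ ℂ) := by
      rw [Ne, map_eq_zero_iff _ (C_injective τ ℂ), rootPoly, Polynomial.eval_prod,
        Finset.prod_eq_zero_iff]
      rintro ⟨d, hd, he⟩
      rw [Polynomial.eval_sub, Polynomial.eval_X, Polynomial.eval_C, sub_eq_zero] at he
      exact hc (he ▸ hd)
    obtain ⟨q, hq⟩ := dvd_sub_spec c r
    rw [h1.resolve_left hne, map_zero, sub_zero] at hq
    refine ⟨q, ?_⟩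
    rw [hr, hq, show rootPoly (insert c S) = (Polynomial.X - Polynomial.C c) * rootPoly S from
      Finset.prod_insert hc, map_mul]
    simp [toPar]
    ring

variable [Fintype τ]

/-- The substitution scaling the variables. -/
noncomputable def scale (q : Polynomial ℂ) : MvPolynomial τ ℂ →ₐ[ℂ] MvPolynomial (Option τ) ℂ :=
  aeval fun t => toPar q * X (some t)

theorem scale_monomial (q : Polynomial ℂ) (d : τ →₀ ℕ) (a : ℂ) :
    scale q (monomial d a) =
      toPar q ^ (∑ t, d t) * (C a * ∏ t, X (some t) ^ d t) := by
  rw [scale, aeval_monomial, Finsupp.prod_fintype _ _ fun _ => pow_zero _, algebraMap_eq]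
  simp only [mul_pow, Finset.prod_mul_distrib, Finset.prod_pow_eq_pow_sum]
  ring

theorem scale_dvd {p : MvPolynomial τ ℂ} (h0 : constantCoeff p = 0)
    (h1 : ∀ l, constantCoeff (pderiv l p) = 0) (q : Polynomial ℂ) :
    toPar q ^ 2 ∣ scale q p := by
  classical
  rw [p.as_sum, map_sum]
  refine Finset.dvd_sum fun d hd => ?_
  rw [scale_monomial]
  refine dvd_mul_of_dvd_left (pow_dvd_pow _ ?_) _
  by_contra hlt
  rw [not_le] at hlt
  have hne := mem_support_iff.1 hd
  rcases Nat.lt_succ_iff.1 hlt |>.lt_or_eq with h | h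
  · have : d = 0 := by
      ext t
      have := Finset.single_le_sum (f := fun t => d t) (fun _ _ => Nat.zero_le _)
        (Finset.mem_univ t)
      simp
      omega
    exact hne (this ▸ h0)
  · obtain ⟨l, hl⟩ : ∃ l, d l ≠ 0 := by
      by_contra hall
      push Not at hall
      simp [hall] at h
    have : d = Finsupp.single l 1 := by
      ext t
      have h2 := Finset.single_le_sum (f := fun t => d t) (fun _ _ => Nat.zero_le _)
        (Finset.mem_univ l)
      by_cases ht : t = l
      · subst ht
        simp
        omega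
      · have h3 : d l + d t ≤ ∑ e, d e := by
          calc d l + d t = ∑ e ∈ ({l, t} : Finset τ), d e := by rw [Finset.sum_pair (Ne.symm ht)]
            _ ≤ _ := Finset.sum_le_sum_of_subset (Finset.subset_univ _)
        simp [Ne.symm ht]
        omega
    apply hne
    have h4 := h1 l
    rw [constantCoeff_eq, coeff_pderiv, zero_add] at h4
    simpa [this] using h4

/-- The rescaled images of the variables. -/
theorem exists_scaled {θ : MvPolynomial τ ℂ →ₐ[ℂ] MvPolynomial τ ℂ} (h : Normalised θ)
    (q : Polynomial ℂ) (s : τ) :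
    ∃ r, scale q (θ (X s)) = toPar q * (X (some s) + toPar q * r) := by
  obtain ⟨r, hr⟩ := scale_dvd (p := θ (X s) - X s)
    (by rw [map_sub, (h s).1, constantCoeff_X, sub_zero])
    (fun l => by rw [map_sub, map_sub, (h s).2 l, sub_self]) q
  refine ⟨r, ?_⟩
  rw [map_sub, show scale q (X s) = toPar q * X (some s) by simp [scale], sub_eq_iff_eq_add] at hr
  rw [hr]
  ring

/-- A normalised automorphism spread over the parameter line. -/
theorem exists_interpolation (θ : MvPolynomial τ ℂ ≃ₐ[ℂ] MvPolynomial τ ℂ)
    (h : Normalised θ.toAlgHom) (q : Polynomial ℂ) (hq : q ≠ 0) :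
    ∃ Φ : MvPolynomial (Option τ) ℂ ≃ₐ[ℂ] MvPolynomial (Option τ) ℂ,
      (∀ r, Φ (toPar r) = toPar r) ∧
      ∀ c p, (q.eval c = 1 → spec c (Φ p) = θ (spec c p)) ∧
        (q.eval c = 0 → spec c (Φ p) = spec c p) := by
  choose r hr using exists_scaled h q
  choose r' hr' using exists_scaled (Normalised.symm θ h) q
  let P : (τ → MvPolynomial (Option τ) ℂ) → Option τ → MvPolynomial (Option τ) ℂ :=
    fun r o => o.elim (X none) fun s => X (some s) + toPar q * r s
  have hfix : ∀ (r : τ → MvPolynomial (Option τ) ℂ) (p : Polynomial ℂ),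
      aeval (P r) (toPar p) = toPar p := fun r p => by
    rw [toPar, ← Polynomial.aeval_algHom_apply]
    simp [P]
  have hq0 : (toPar q : MvPolynomial (Option τ) ℂ) ≠ 0 := by
    intro h0
    obtain ⟨c, hc⟩ := Polynomial.exists_eval_ne_zero_of_natDegree_lt_card q hq (by
      exact lt_of_lt_of_le (Cardinal.nat_lt_aleph0 _) (Cardinal.aleph0_le_mk ℂ))
    have := congrArg (spec c) h0
    rw [spec_toPar, map_zero, map_eq_zero_iff _ (C_injective τ ℂ)] at this
    exact hc this
  have key : ∀ (r r' : τ → MvPolynomial (Option τ) ℂ)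
      (η η' : MvPolynomial τ ℂ ≃ₐ[ℂ] MvPolynomial τ ℂ), (∀ p, η (η' p) = p) →
      (∀ s, scale q (η (X s)) = toPar q * (X (some s) + toPar q * r s)) →
      (∀ s, scale q (η' (X s)) = toPar q * (X (some s) + toPar q * r' s)) →
      ∀ o, aeval (P r) (P r' o) = X o := by
    intro r r' η η' hinv hη hη' o
    cases o with
    | none => simp [P]
    | some s =>
      refine mul_left_cancel₀ hq0 ?_
      have h1 : ∀ p, aeval (P r) (scale q p) = scale q (η p) := by
        intro p
        have : (aeval (P r)).comp (scale q) = (scale q).comp η.toAlgHom := algHom_ext fun t => by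
          show aeval (P r) (scale q (X t)) = scale q (η (X t))
          rw [hη, scale, aeval_X, map_mul, hfix, aeval_X]
          rfl
        exact DFunLike.congr_fun this p
      have := h1 (η' (X s))
      rw [hη', hinv, scale, aeval_X, map_mul, hfix] at this
      exact this
  let Φ : MvPolynomial (Option τ) ℂ ≃ₐ[ℂ] MvPolynomial (Option τ) ℂ :=
    AlgEquiv.ofAlgHom (aeval (P r)) (aeval (P r'))
      (algHom_ext fun o => by
        simpa using key r r' θ θ.symm θ.apply_symm_apply hr hr' o)
      (algHom_ext fun o => by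
        simpa using key r' r θ.symm θ θ.symm_apply_apply hr' hr o)
  refine ⟨Φ, hfix r, fun c p => ⟨fun hc => ?_, fun hc => ?_⟩⟩
  · have : (spec c).comp (aeval (P r)) = θ.toAlgHom.comp (spec c) := algHom_ext fun o => by
      cases o with
      | none =>
        simp [P, spec]
        exact (θ.commutes c).symm
      | some s =>
        have h1 := congrArg (spec c) (hr s)
        have h2 : ∀ p : MvPolynomial τ ℂ, spec c (scale q p) = p := fun p => by
          have : (spec c).comp (scale q) = AlgHom.id ℂ (MvPolynomial τ ℂ) := algHom_ext fun t => by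
            show spec c (scale q (X t)) = X t
            rw [scale, aeval_X, map_mul, spec_toPar, hc]
            simp [spec]
          exact DFunLike.congr_fun this p
        rw [h2, map_mul, spec_toPar, hc, map_one, one_mul] at h1
        simpa [P, spec] using h1.symm
    exact DFunLike.congr_fun this p
  · have : (spec c).comp (aeval (P r)) = spec c := algHom_ext fun o => by
      cases o with
      | none => simp [P]
      | some s =>
        show spec c (aeval (P r) (X (some s))) = _
        rw [aeval_X]
        simp [P, spec_toPar, hc]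
    exact DFunLike.congr_fun this p

/-- All the normalised automorphisms at once. -/
theorem exists_interpolation_all (S : Finset ℂ)
    (θ : ℂ → (MvPolynomial τ ℂ ≃ₐ[ℂ] MvPolynomial τ ℂ))
    (h : ∀ c ∈ S, Normalised (θ c).toAlgHom) :
    ∃ Φ : MvPolynomial (Option τ) ℂ ≃ₐ[ℂ] MvPolynomial (Option τ) ℂ,
      (∀ r, Φ (toPar r) = toPar r) ∧ ∀ c ∈ S, ∀ p, spec c (Φ p) = θ c (spec c p) := by
  classical
  suffices H : ∀ T ⊆ S, ∃ Φ : MvPolynomial (Option τ) ℂ ≃ₐ[ℂ] MvPolynomial (Option τ) ℂ,
      (∀ r, Φ (toPar r) = toPar r) ∧ ∀ c ∈ S, ∀ p,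
        spec c (Φ p) = if c ∈ T then θ c (spec c p) else spec c p by
    obtain ⟨Φ, h1, h2⟩ := H S subset_rfl
    exact ⟨Φ, h1, fun c hc p => by rw [h2 c hc p, if_pos hc]⟩
  intro T
  induction T using Finset.induction_on with
  | empty => exact fun _ => ⟨AlgEquiv.refl, fun r => rfl, fun c _ p => by simp⟩
  | @insert d T hd ih =>
    intro hT
    obtain ⟨Φ, h1, h2⟩ := ih ((Finset.subset_insert d T).trans hT)
    have hdS := hT (Finset.mem_insert_self d T)
    have hinj : Set.InjOn (id : ℂ → ℂ) S := fun _ _ _ _ h => h
    have hd1 : (Lagrange.basis S id d).eval d = 1 := Lagrange.eval_basis_self hinj hdS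
    obtain ⟨Ψ, h3, h4⟩ := exists_interpolation (θ d) (h d hdS) (Lagrange.basis S id d)
      (fun h0 => by rw [h0] at hd1; simp at hd1)
    refine ⟨Φ.trans Ψ, fun r => by simp [h1, h3], fun c hc p => ?_⟩
    rw [AlgEquiv.trans_apply]
    by_cases hcd : c = d
    · subst hcd
      rw [(h4 c (Φ p)).1 hd1, h2 c hc p, if_neg hd, if_pos (Finset.mem_insert_self c T)]
    · have hc0 : (Lagrange.basis S id d).eval c = 0 :=
        Lagrange.eval_basis_of_ne (v := id) (Ne.symm hcd) hc
      rw [(h4 c (Φ p)).2 hc0, h2 c hc p]
      simp [Finset.mem_insert, hcd]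

end Base

/-- Automorphisms extend to one more variable. -/
theorem exists_extend (e : MvPolynomial σ ℂ ≃ₐ[ℂ] MvPolynomial σ ℂ) :
    ∃ E : MvPolynomial (Option σ) ℂ ≃ₐ[ℂ] MvPolynomial (Option σ) ℂ,
      E (X none) = X none ∧ ∀ p, E (rename some p) = rename some (e p) := by
  let g : (MvPolynomial σ ℂ →ₐ[ℂ] MvPolynomial σ ℂ) → Option σ → MvPolynomial (Option σ) ℂ :=
    fun f o => o.elim (X none) fun s => rename some (f (X s))
  have hg : ∀ (f : MvPolynomial σ ℂ →ₐ[ℂ] MvPolynomial σ ℂ) p,
      aeval (g f) (rename some p) = rename some (f p) := by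
    intro f p
    have : (aeval (g f)).comp (rename some) = (rename some).comp f :=
      algHom_ext fun s => by simp [g]
    exact DFunLike.congr_fun this p
  refine ⟨AlgEquiv.ofAlgHom (aeval (g e.toAlgHom)) (aeval (g e.symm.toAlgHom))
    (algHom_ext fun o => ?_) (algHom_ext fun o => ?_), by simp [g], hg e.toAlgHom⟩
  · cases o with
    | none => simp [g]
    | some s =>
      show aeval (g e.toAlgHom) (aeval (g e.symm.toAlgHom) (X (some s))) = X (some s)
      rw [aeval_X]
      show aeval (g e.toAlgHom) (rename some (e.symm (X s))) = _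
      rw [hg]
      simp
  · cases o with
    | none => simp [g]
    | some s =>
      show aeval (g e.symm.toAlgHom) (aeval (g e.toAlgHom) (X (some s))) = X (some s)
      rw [aeval_X]
      show aeval (g e.symm.toAlgHom) (rename some (e (X s))) = _
      rw [hg]
      simp

/-- Translation of one variable by a polynomial in the others. -/
theorem exists_shift (k : MvPolynomial σ ℂ) :
    ∃ E : MvPolynomial (Option σ) ℂ ≃ₐ[ℂ] MvPolynomial (Option σ) ℂ,
      E (X none) = X none + rename some k ∧ ∀ p, E (rename some p) = rename some p := by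
  let g : MvPolynomial σ ℂ → Option σ → MvPolynomial (Option σ) ℂ :=
    fun k o => o.elim (X none + rename some k) fun s => X (some s)
  have hg : ∀ k p, aeval (g k) (rename some p) = rename some p := by
    intro k p
    have : (aeval (g k)).comp (rename some) = rename some := algHom_ext fun s => by simp [g]
    exact DFunLike.congr_fun this p
  refine ⟨AlgEquiv.ofAlgHom (aeval (g k)) (aeval (g (-k)))
    (algHom_ext fun o => ?_) (algHom_ext fun o => ?_), by simp [g], hg k⟩
  · cases o with
    | none =>
      show aeval (g k) (aeval (g (-k)) (X none)) = X none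
      rw [aeval_X]
      show aeval (g k) (X none + rename some (-k)) = X none
      rw [map_add, hg, aeval_X]
      simp [g]
    | some s => simp [g]
  · cases o with
    | none =>
      show aeval (g (-k)) (aeval (g k) (X none)) = X none
      rw [aeval_X]
      show aeval (g (-k)) (X none + rename some k) = X none
      rw [map_add, hg, aeval_X]
      simp [g]
    | some s => simp [g]

/-- A linear extension with squarefree coefficient is a coordinate as soon as its values at the
roots are coordinates. -/
theorem isCoordinate_linearExt [Fintype τ] {κ : ℂ} (hκ : κ ≠ 0) (S : Finset ℂ)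
    (b : MvPolynomial (Option τ) ℂ) (hb : ∀ c ∈ S, IsCoordinate (spec c b)) :
    IsCoordinate (linearExt κ S b) := by
  classical
  rcases S.eq_empty_or_nonempty with hS | ⟨c₀, hc₀⟩
  · subst hS
    refine isCoordinate_of_direction (v := fun o => o.elim κ⁻¹ fun _ => 0) ?_
    have h0 : pderiv (none : Option (Option τ)) (rename some b) = 0 := by
      refine pderiv_eq_zero_of_notMem_vars fun hi => ?_
      obtain ⟨x, -, hx⟩ := Finset.mem_image.1 (vars_rename _ b hi)
      exact (Option.some_ne_none x hx).elim
    simp [Fintype.sum_option, linearExt, rootPoly, h0, ← map_mul, hκ]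
  choose θ β α hθ hα hθb using fun c (hc : c ∈ S) => exists_normal (hb c hc)
  let θ' : ℂ → (MvPolynomial τ ℂ ≃ₐ[ℂ] MvPolynomial τ ℂ) := fun c =>
    if hc : c ∈ S then (θ c hc).symm else AlgEquiv.refl
  obtain ⟨Φ, hΦ1, hΦ2⟩ := exists_interpolation_all S θ' fun c hc => by
    simp only [θ', dif_pos hc]
    exact Normalised.symm _ (hθ c hc)
  let β' : ℂ → ℂ := fun c => if hc : c ∈ S then β c hc else 0
  let α' : ℂ → τ → ℂ := fun c => if hc : c ∈ S then α c hc else 0
  let Q : ℂ → Polynomial ℂ := fun c => Lagrange.basis S id c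
  have hinj : Set.InjOn (id : ℂ → ℂ) S := fun _ _ _ _ h => h
  have hQ1 : ∀ c ∈ S, (Q c).eval c = 1 := fun c hc => Lagrange.eval_basis_self hinj hc
  have hQ0 : ∀ c ∈ S, ∀ d, d ≠ c → (Q d).eval c = 0 := fun c hc d hd =>
    Lagrange.eval_basis_of_ne (v := id) hd hc
  let L : MvPolynomial (Option τ) ℂ :=
    ∑ c ∈ S, toPar (Q c) * rename some (C (β' c) + ∑ t, C (α' c t) * X t)
  have hL : ∀ c ∈ S, spec c L = C (β' c) + ∑ t, C (α' c t) * X t := by
    intro c hc
    rw [map_sum, Finset.sum_eq_single c]
    · rw [map_mul, spec_toPar, spec_rename, hQ1 c hc, map_one, one_mul]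
    · intro d _ hd
      rw [map_mul, spec_toPar, hQ0 c hc d hd, map_zero, zero_mul]
    · exact fun h => absurd hc h
  obtain ⟨r, hr⟩ := dvd_of_forall_spec S (Φ b - L) fun c hc => by
    rw [map_sub, hΦ2 c hc, hL c hc]
    simp only [θ', β', α', dif_pos hc]
    rw [← hθb c hc, AlgEquiv.symm_apply_apply, sub_self]
  obtain ⟨E, hE0, hE⟩ := exists_extend Φ
  obtain ⟨T, hT0, hT⟩ := exists_shift (-(C κ⁻¹ * r))
  refine isCoordinate_of_equiv E (isCoordinate_of_equiv T ?_)
  have hf : T (E (linearExt κ S b)) = linearExt κ S L := by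
    rw [sub_eq_iff_eq_add] at hr
    simp only [linearExt, map_add, map_mul, hE, hE0, hT0, hT, hΦ1, hr, AlgEquiv.commutes,
      ← algebraMap_eq]
    simp only [algebraMap_eq, map_neg, map_mul, rename_C]
    have : C κ * C κ⁻¹ = (1 : MvPolynomial (Option (Option τ)) ℂ) := by
      rw [← map_mul, mul_inv_cancel₀ hκ, map_one]
    linear_combination (-(rename some (toPar (rootPoly S)) * rename some r)) * this
  rw [hf]
  -- a constant direction in the z variables transversal at every root
  obtain ⟨w, t₀, hwt, hw⟩ : ∃ (w : τ → ℂ) (t₀ : τ), w t₀ ≠ 0 ∧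
      ∀ c ∈ S, ∑ t, w t * α' c t ≠ 0 := by
    let e := Fintype.equivFin τ
    let P : ℂ → Polynomial ℂ := fun c => ∑ t, Polynomial.monomial (e t : ℕ) (α' c t)
    have hP : ∀ c ∈ S, P c ≠ 0 := by
      intro c hc h0
      have hne : α' c ≠ 0 := by simp only [α', dif_pos hc]; exact hα c hc
      refine hne (funext fun t => ?_)
      have := congrArg (fun p => Polynomial.coeff p (e t : ℕ)) h0
      simpa [P, Polynomial.coeff_monomial, Fin.val_inj] using this
    obtain ⟨s, hs⟩ : ∃ s, s ∉ insert (0 : ℂ) (S.biUnion fun c => (P c).roots.toFinset) :=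
      Infinite.exists_notMem_finset _
    simp only [Finset.mem_insert, Finset.mem_biUnion, not_or, not_exists, not_and] at hs
    obtain ⟨t₀, -⟩ : ∃ t : τ, α' c₀ t ≠ 0 := by
      by_contra hall
      push Not at hall
      exact hP c₀ hc₀ (by simp [P, hall])
    refine ⟨fun t => s ^ (e t : ℕ), t₀, pow_ne_zero _ hs.1, fun c hc h0 => hs.2 c hc ?_⟩
    rw [Multiset.mem_toFinset, Polynomial.mem_roots (hP c hc), Polynomial.IsRoot, ← h0]
    simp [P, Polynomial.eval_finsetSum, mul_comm]
  let A := rootPoly S
  let B : Polynomial ℂ := ∑ c ∈ S, Polynomial.C (∑ t, w t * α' c t) * Q c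
  have hco : IsCoprime (Polynomial.C κ * A) B := by
    refine (IsCoprime.mul_left (isCoprime_one_left.of_isCoprime_of_dvd_left ?_) ?_)
    · exact (Polynomial.isUnit_C.2 (IsUnit.mk0 κ hκ)).dvd
    refine IsCoprime.prod_left fun c hc => ?_
    rw [(Polynomial.irreducible_X_sub_C c).coprime_iff_not_dvd, Polynomial.dvd_iff_isRoot,
      Polynomial.IsRoot]
    simp only [B, Polynomial.eval_finsetSum, Polynomial.eval_mul, Polynomial.eval_C]
    rw [Finset.sum_eq_single c]
    · rw [hQ1 c hc, mul_one]
      exact hw c hc
    · intro d _ hd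
      rw [hQ0 c hc d hd, mul_zero]
    · exact fun h => absurd hc h
  obtain ⟨u, v, huv⟩ := hco
  set p : MvPolynomial (Option (Option τ)) ℂ :=
    rename some (toPar (Polynomial.C κ * A)) with hp
  set B' : MvPolynomial (Option (Option τ)) ℂ := rename some (toPar B) with hB'
  set u' : MvPolynomial (Option (Option τ)) ℂ := rename some (toPar u) with hu'
  set v' : MvPolynomial (Option (Option τ)) ℂ := rename some (toPar v) with hv'
  have hid : u' * p + v' * B' = 1 := by
    rw [hu', hp, hv', hB', ← map_mul, ← map_mul, ← map_mul, ← map_mul, ← map_add, ← map_add,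
      huv, map_one, map_one]
  -- the images of the variables
  let ζ : MvPolynomial (Option (Option τ)) ℂ := v' * X none + p * X (some (some t₀))
  let g : Option (Option τ) → MvPolynomial (Option (Option τ)) ℂ := fun o => o.elim
    (u' * X none - B' * X (some (some t₀))) fun o => o.elim (X (some none)) fun t =>
      if t = t₀ then C (w t₀) * ζ else X (some (some t)) + C (w t) * ζ
  let ζ' : MvPolynomial (Option (Option τ)) ℂ :=
    -(v' * X none) + u' * (C (w t₀)⁻¹ * X (some (some t₀)))
  let g' : Option (Option τ) → MvPolynomial (Option (Option τ)) ℂ := fun o => o.elim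
    (p * X none + B' * (C (w t₀)⁻¹ * X (some (some t₀)))) fun o => o.elim (X (some none))
      fun t => if t = t₀ then ζ'
        else X (some (some t)) - C (w t * (w t₀)⁻¹) * X (some (some t₀))
  have hpar : ∀ (h : Option (Option τ) → MvPolynomial (Option (Option τ)) ℂ),
      h (some none) = X (some none) → ∀ q : Polynomial ℂ,
        aeval h (rename some (toPar q)) = rename some (toPar q) := by
    intro h hh q
    rw [aeval_rename, toPar, ← Polynomial.aeval_algHom_apply, ← Polynomial.aeval_algHom_apply]
    simp [hh]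
  have hwi : C (w t₀) * C (w t₀)⁻¹ = (1 : MvPolynomial (Option (Option τ)) ℂ) := by
    rw [← map_mul, mul_inv_cancel₀ hwt, map_one]
  have hg'par := hpar g' rfl
  have hgpar := hpar g rfl
  have gp : aeval g p = p := hgpar _
  have gB : aeval g B' = B' := hgpar _
  have gu : aeval g u' = u' := hgpar _
  have gv : aeval g v' = v' := hgpar _
  have g'p : aeval g' p = p := hg'par _
  have g'B : aeval g' B' = B' := hg'par _
  have g'u : aeval g' u' = u' := hg'par _
  have g'v : aeval g' v' = v' := hg'par _
  have gn : g none = u' * X none - B' * X (some (some t₀)) := rfl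
  have g'n : g' none = p * X none + B' * (C (w t₀)⁻¹ * X (some (some t₀))) := rfl
  have gt₀ : g (some (some t₀)) = C (w t₀) * ζ := if_pos rfl
  have g't₀ : g' (some (some t₀)) = ζ' := if_pos rfl
  have gt : ∀ t, t ≠ t₀ → g (some (some t)) = X (some (some t)) + C (w t) * ζ :=
    fun t ht => if_neg ht
  have g't : ∀ t, t ≠ t₀ → g' (some (some t)) =
      X (some (some t)) - C (w t * (w t₀)⁻¹) * X (some (some t₀)) :=
    fun t ht => if_neg ht
  have ez : aeval g' ζ = C (w t₀)⁻¹ * X (some (some t₀)) := by
    simp only [ζ, map_add, map_mul, g'p, g'v, aeval_X, g'n, g't₀, ζ']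
    linear_combination (C (w t₀)⁻¹ * X (some (some t₀))) * hid
  let G : MvPolynomial (Option (Option τ)) ℂ ≃ₐ[ℂ] MvPolynomial (Option (Option τ)) ℂ :=
    AlgEquiv.ofAlgHom (aeval g) (aeval g')
      (algHom_ext fun o => by
        rcases o with _ | _ | t
        · simp only [AlgHom.comp_apply, AlgHom.id_apply, aeval_X, g'n, map_add, map_mul, gp, gB,
            aeval_C, algebraMap_eq, gn, gt₀, ζ]
          linear_combination (X none) * hid +
            (B' * (v' * X none + p * X (some (some t₀)))) * hwi
        · simp [g, g']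
        · by_cases ht : t = t₀
          · subst ht
            simp only [AlgHom.comp_apply, AlgHom.id_apply, aeval_X, g't₀, ζ', map_add, map_neg,
              map_mul, gu, gv, aeval_C, algebraMap_eq, gn, gt₀, ζ]
            linear_combination (X (some (some t))) * hid +
              (u' * (v' * X none + p * X (some (some t)))) * hwi
          · simp only [AlgHom.comp_apply, AlgHom.id_apply, aeval_X, g't t ht, gt t ht, map_sub,
              map_mul, aeval_C, algebraMap_eq, gt₀]
            linear_combination (-(C (w t)) * ζ) * hwi)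
      (algHom_ext fun o => by
        rcases o with _ | _ | t
        · simp only [AlgHom.comp_apply, AlgHom.id_apply, aeval_X, gn, map_sub, map_mul, g'u, g'B,
            g'n, g't₀, ζ']
          linear_combination (X none) * hid
        · simp [g, g']
        · by_cases ht : t = t₀
          · subst ht
            simp only [AlgHom.comp_apply, AlgHom.id_apply, aeval_X, gt₀, map_mul, aeval_C,
              algebraMap_eq, ez]
            linear_combination (X (some (some t))) * hwi
          · simp only [AlgHom.comp_apply, AlgHom.id_apply, aeval_X, gt t ht, map_add, map_mul,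
              aeval_C, algebraMap_eq, ez, g't t ht]
            ring)
  refine isCoordinate_of_equiv G ?_
  -- now the first variable occurs with coefficient one
  let rest : MvPolynomial (Option τ) ℂ :=
    ∑ c ∈ S, toPar (Q c) * (C (β' c) + ∑ t ∈ Finset.univ.erase t₀, C (α' c t) * X (some t))
  have hG : G (linearExt κ S L) = X none + rename some rest := by
    show aeval g (linearExt κ S L) = _
    have e1 : ∀ c, aeval g (rename some (rename some (C (β' c) + ∑ t, C (α' c t) * X t))) =
        C (β' c) + (∑ t ∈ Finset.univ.erase t₀, C (α' c t) * X (some (some t))) +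
          C (∑ t, w t * α' c t) * ζ := by
      intro c
      simp only [map_add, map_sum, map_mul, rename_C, rename_X, aeval_C, aeval_X, algebraMap_eq,
        g, Option.elim]
      rw [← Finset.add_sum_erase _ _ (Finset.mem_univ t₀), if_pos rfl,
        Finset.sum_congr rfl fun t ht => by rw [if_neg (Finset.mem_erase.1 ht).1],
        ← Finset.add_sum_erase _ (fun t => C (w t) * C (α' c t)) (Finset.mem_univ t₀)]
      simp only [mul_add, Finset.sum_add_distrib, add_mul, Finset.sum_mul]
      have : ∀ t, C (α' c t) * (C (w t) * ζ) = C (w t) * C (α' c t) * ζ := fun t => by ring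
      simp only [this]
      ring
    have e2 : aeval g (rename some L) = rename some rest + B' * ζ := by
      simp only [L, map_sum, map_mul, hgpar, e1, rest, B, hB', Finset.sum_mul,
        ← Finset.sum_add_distrib]
      refine Finset.sum_congr rfl fun c _ => ?_
      simp only [toPar, Polynomial.aeval_C, algebraMap_eq, rename_C, map_add, map_mul, map_sum,
        rename_X, mul_add, Finset.mul_sum]
      congr 1
      refine Finset.sum_congr rfl fun _ _ => ?_
      ring
    have e3 : aeval g (linearExt κ S L) =
        p * aeval g (X none : MvPolynomial (Option (Option τ)) ℂ) + aeval g (rename some L) := by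
      have h1 : toPar (τ := τ) (Polynomial.C κ * A) = C κ * toPar (rootPoly S) := by
        simp [A, toPar]
      rw [hp, h1]
      simp only [linearExt, map_add, map_mul, hgpar, aeval_C, algebraMap_eq, rename_C]
    rw [e3, e2, aeval_X]
    simp only [g, Option.elim, ζ]
    linear_combination (X none) * hid
  obtain ⟨T', hT'0, hT'⟩ := exists_shift (-rest)
  refine ⟨T', none, ?_⟩
  rw [hG, map_add, hT'0, hT', map_neg]
  ring

end Vale.Agent.P295
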