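import Vale.Agent.P295.Interpolate
import Mathlib.Analysis.Complex.Polynomial.Basic
import Mathlib.Algebra.Polynomial.Derivative

/-!
Nested linear polynomials: coordinates as soon as they have no critical point.
-/

namespace Vale.Agent.P295

open MvPolynomial

variable {σ σ' τ : Type}

theorem NoCritical.of_rename (e : σ ≃ σ') {f : MvPolynomial σ ℂ} (h : NoCritical (rename e f)) :
    NoCritical f := by
  intro p
  obtain ⟨j, hj⟩ := h (p ∘ e.symm)
  refine ⟨e.symm j, fun h0 => hj ?_⟩
  rw [← e.apply_symm_apply j, pderiv_rename e.injective, eval_rename, Function.comp_assoc,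
    Equiv.symm_comp_self, Function.comp_id]
  exact h0

theorem NoCritical.of_equiv [Fintype σ] (φ : MvPolynomial σ ℂ ≃ₐ[ℂ] MvPolynomial σ ℂ)
    {f : MvPolynomial σ ℂ} (h : NoCritical (φ f)) : NoCritical f := by
  intro q
  by_contra! hcrit
  obtain ⟨s, hs⟩ := h fun t => eval q (φ.symm (X t))
  apply hs
  have hev : ∀ g, eval (fun t => eval q (φ.symm (X t))) g = eval q (φ.symm g) := by
    intro g
    induction g using MvPolynomial.induction_on with
    | C a => simp [show φ.symm (C a) = C a from φ.symm.commutes a]
    | add a b ha hb => simp [ha, hb]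
    | mul_X a i ha => simp [ha]
  rw [equiv_apply_eq_aeval φ f, chain_rule, map_sum]
  refine Finset.sum_eq_zero fun i _ => ?_
  rw [map_mul, ← equiv_apply_eq_aeval φ, hev, φ.symm_apply_apply, hcrit i, zero_mul]

theorem pderiv_none_toPar (q : Polynomial ℂ) :
    pderiv none (toPar (τ := τ) q) = toPar (Polynomial.derivative q) := by
  induction q using Polynomial.induction_on' with
  | add q r hq hr => simp [hq, hr]
  | monomial n a =>
    simp [toPar, Polynomial.aeval_monomial, Polynomial.derivative_monomial, algebraMap_eq,
      pderiv_pow, mul_assoc]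

theorem pderiv_some_toPar (t : τ) (q : Polynomial ℂ) :
    pderiv (some t) (toPar (τ := τ) q) = 0 := by
  induction q using Polynomial.induction_on' with
  | add q r hq hr => simp [hq, hr]
  | monomial n a =>
    simp [toPar, Polynomial.aeval_monomial, algebraMap_eq, pderiv_pow]

theorem derivative_rootPoly_ne_zero {S : Finset ℂ} {c : ℂ} (hc : c ∈ S) :
    (Polynomial.derivative (rootPoly S)).eval c ≠ 0 := by
  classical
  rw [rootPoly, Polynomial.derivative_prod_finset, Polynomial.eval_finsetSum,
    Finset.sum_eq_single c]
  · simp [Polynomial.eval_prod, Finset.prod_eq_zero_iff, sub_eq_zero]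
  · intro d _ hd
    simp [Polynomial.eval_prod, Finset.prod_eq_zero_iff, sub_eq_zero, hc, Ne.symm hd]
  · exact fun h => absurd hc h

theorem eval_spec (c : ℂ) (z : τ → ℂ) (g : MvPolynomial (Option τ) ℂ) :
    eval z (spec c g) = eval (fun o => o.elim c z) g := by
  induction g using MvPolynomial.induction_on with
  | C a => simp [spec]
  | add a b ha hb => simp [ha, hb]
  | mul_X a i ha =>
    rw [map_mul, map_mul, map_mul, ha]
    cases i <;> simp [spec]

theorem pderiv_spec [Fintype τ] (c : ℂ) (t : τ) (g : MvPolynomial (Option τ) ℂ) :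
    pderiv t (spec c g) = spec c (pderiv (some t) g) := by
  classical
  rw [spec, chain_rule, Fintype.sum_option]
  simp [pderiv_X, Pi.single_apply]

/-- Absence of critical points passes to the values at the roots. -/
theorem NoCritical.of_linearExt [Fintype τ] {κ : ℂ} (hκ : κ ≠ 0) {S : Finset ℂ}
    {b : MvPolynomial (Option τ) ℂ} (h : NoCritical (linearExt κ S b)) {c : ℂ} (hc : c ∈ S) :
    NoCritical (spec c b) := by
  classical
  intro z
  by_contra! hcrit
  set q : Option τ → ℂ := fun o => o.elim c z with hq
  set D := (Polynomial.derivative (rootPoly S)).eval c with hD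
  have hpar : ∀ r : Polynomial ℂ, eval q (toPar r) = r.eval c := fun r => by
    rw [hq, ← eval_spec, spec_toPar, eval_C]
  have hz : (rootPoly S).eval c = 0 := by
    simp [rootPoly, Polynomial.eval_prod, Finset.prod_eq_zero_iff, sub_eq_zero, hc]
  have hn : ∀ g : MvPolynomial (Option τ) ℂ,
      pderiv (none : Option (Option τ)) (rename some g) = 0 := fun g =>
    pderiv_eq_zero_of_notMem_vars fun hi => by
      obtain ⟨x, -, hx⟩ := Finset.mem_image.1 (vars_rename _ g hi)
      exact (Option.some_ne_none x hx).elim
  set y : ℂ := -(eval q (pderiv none b)) / (κ * D) with hy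
  obtain ⟨i, hi⟩ := h fun o => o.elim y q
  apply hi
  have hev : ∀ g : MvPolynomial (Option τ) ℂ,
      eval (fun o => o.elim y q) (rename some g) = eval q g := fun g => by
    rw [eval_rename]
    rfl
  have hx : ∀ o : Option τ,
      pderiv (some o) (X none : MvPolynomial (Option (Option τ)) ℂ) = 0 :=
    fun o => pderiv_X_of_ne (by simp)
  rcases i with _ | _ | t
  · simp [linearExt, hn, hev, hpar, hz]
  · have h0 : D * (κ * y) + eval q (pderiv none b) = 0 := by
      rw [hy]
      have hD0 : D ≠ 0 := derivative_rootPoly_ne_zero hc
      field_simp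
      ring
    simp only [linearExt, map_add, map_mul, pderiv_mul, pderiv_C, hx,
      pderiv_rename (Option.some_injective _), pderiv_none_toPar, eval_C, eval_X, hev, hpar,
      map_zero, Option.elim_none]
    linear_combination h0
  · have h1 := hcrit t
    rw [pderiv_spec, eval_spec, ← hq] at h1
    simp only [linearExt, map_add, map_mul, pderiv_mul, pderiv_C, hx,
      pderiv_rename (Option.some_injective _), pderiv_some_toPar, eval_C, hev, h1, map_zero]
    ring

theorem isCoordinate_univariate [Fintype σ] [Subsingleton σ] {f : MvPolynomial σ ℂ}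
    (h : NoCritical f) : IsCoordinate f := by
  classical
  obtain ⟨i, -⟩ := h 0
  set q : Polynomial ℂ := aeval (fun _ : σ => (Polynomial.X : Polynomial ℂ)) (pderiv i f) with hq
  have hev : ∀ p : σ → ℂ, q.eval (p i) = eval p (pderiv i f) := by
    intro p
    rw [hq]
    generalize pderiv i f = g
    induction g using MvPolynomial.induction_on with
    | C a => simp
    | add a b ha hb => simp [ha, hb]
    | mul_X a j ha => simp [ha, Subsingleton.elim j i]
  have hroot : ∀ z, ¬ q.IsRoot z := by
    intro z hz
    obtain ⟨j, hj⟩ := h fun _ => z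
    rw [Subsingleton.elim j i, ← hev] at hj
    exact hj hz
  have hdeg : q.degree = 0 := by
    by_contra hne
    obtain ⟨z, hz⟩ := IsAlgClosed.exists_root q hne
    exact hroot z hz
  have hC := Polynomial.eq_C_of_degree_eq_zero hdeg
  have ha : q.coeff 0 ≠ 0 := by
    intro h0
    rw [h0, map_zero] at hC
    exact hroot 0 (by simp [hC])
  have hpd : pderiv i f = C (q.coeff 0) := MvPolynomial.funext fun p => by
    rw [← hev, hC]
    simp
  refine isCoordinate_of_direction (v := fun _ => (q.coeff 0)⁻¹) ?_
  rw [Fintype.sum_subsingleton _ i, hpd, ← map_mul, inv_mul_cancel₀ ha, map_one]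

/-- A nested linear polynomial without critical point is a coordinate. -/
theorem Nested.isCoordinate {σ : Type} {f : MvPolynomial σ ℂ} (h : Nested f) :
    NoCritical f → IsCoordinate f := by
  induction h with
  | quadratic f h =>
    intro hn
    obtain ⟨v, hv⟩ := exists_direction h hn
    exact isCoordinate_of_direction hv
  | univariate f => exact isCoordinate_univariate
  | linear κ hκ S b _ ih =>
    exact fun hn => isCoordinate_linearExt hκ S b fun c hc => ih c hc (hn.of_linearExt hκ hc)
  | reindex e f _ ih => exact fun hn => isCoordinate_rename e (ih (NoCritical.of_rename e hn))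
  | change φ f _ ih =>
    exact fun hn => isCoordinate_of_equiv φ.symm (by
      rw [AlgEquiv.symm_apply_apply]
      exact ih (NoCritical.of_equiv φ hn))

end Vale.Agent.P295
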