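import Vale.Agent.P295.Interpolate
import Mathlib.Analysis.Complex.Polynomial.Basic

/-!
Residual coordinates over a parameter: a linear extension with an arbitrary nonzero coefficient
is a coordinate as soon as its values at the roots are coordinates.
-/

namespace Vale.Agent.P295

open MvPolynomial

variable {σ τ : Type}

theorem dvd_pow_rootPoly {a : Polynomial ℂ} (ha : a ≠ 0) :
    a ∣ rootPoly a.roots.toFinset ^ a.natDegree := by
  have key : ∀ m : Multiset ℂ, (∀ c ∈ m, c ∈ a.roots.toFinset) →
      (m.map fun c => Polynomial.X - Polynomial.C c).prod ∣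
        rootPoly a.roots.toFinset ^ Multiset.card m := by
    intro m
    induction m using Multiset.induction_on with
    | empty => simp
    | cons c m ih =>
      intro h
      rw [Multiset.map_cons, Multiset.prod_cons, Multiset.card_cons, pow_succ']
      exact mul_dvd_mul (Finset.dvd_prod_of_mem _ (h c (Multiset.mem_cons_self c m)))
        (ih fun d hd => h d (Multiset.mem_cons_of_mem hd))
  have hs := IsAlgClosed.splits a
  have hcard : Multiset.card a.roots = a.natDegree := by rw [hs.natDegree_eq_card_roots]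
  have h2 := key a.roots fun c hc => Multiset.mem_toFinset.2 hc
  rw [hcard] at h2
  have h3 : a = Polynomial.C a.leadingCoeff *
      (a.roots.map fun c => Polynomial.X - Polynomial.C c).prod := hs.eq_prod_roots
  conv_lhs => rw [h3]
  exact (IsUnit.mul_left_dvd
    (Polynomial.isUnit_C.2 (IsUnit.mk0 _ (Polynomial.leadingCoeff_ne_zero.2 ha)))).2 h2

theorem toPar_ne_zero {q : Polynomial ℂ} (hq : q ≠ 0) :
    (toPar q : MvPolynomial (Option τ) ℂ) ≠ 0 := by
  intro h0
  obtain ⟨c, hc⟩ := Polynomial.exists_eval_ne_zero_of_natDegree_lt_card q hq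
    (lt_of_lt_of_le Cardinal.natCast_lt_aleph0 (Cardinal.aleph0_le_mk ℂ))
  have := congrArg (spec c) h0
  rw [spec_toPar, map_zero, map_eq_zero_iff _ (C_injective τ ℂ)] at this
  exact hc this

theorem dvd_aeval_sub {R : Type} [CommRing R] [Algebra ℂ R] {M : R} {u w : σ → R}
    (h : ∀ i, M ∣ u i - w i) (p : MvPolynomial σ ℂ) : M ∣ aeval u p - aeval w p := by
  induction p using MvPolynomial.induction_on with
  | C a => simp
  | add p q hp hq =>
    rw [map_add, map_add, add_sub_add_comm]
    exact dvd_add hp hq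
  | mul_X p i hp =>
    rw [map_mul, map_mul, aeval_X, aeval_X, show aeval u p * u i - aeval w p * w i =
      (aeval u p - aeval w p) * u i + aeval w p * (u i - w i) by ring]
    exact dvd_add (dvd_mul_of_dvd_left hp _) (dvd_mul_of_dvd_right (h i) _)

variable [Fintype τ]

/-- The shears over the parameter. -/
theorem exists_shear (v l : τ → Polynomial ℂ) (h : ∑ t, l t * v t = 0) (g : Polynomial ℂ) :
    ∃ E : MvPolynomial (Option τ) ℂ ≃ₐ[ℂ] MvPolynomial (Option τ) ℂ,
      (∀ r, E (toPar r) = toPar r) ∧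
      ∀ t, E (X (some t)) =
        X (some t) + toPar (v t) * Polynomial.aeval (∑ u, toPar (l u) * X (some u)) g := by
  set Λ : MvPolynomial (Option τ) ℂ := ∑ u, toPar (l u) * X (some u) with hΛ
  let P : Polynomial ℂ → Option τ → MvPolynomial (Option τ) ℂ := fun g o =>
    o.elim (X none) fun t => X (some t) + toPar (v t) * Polynomial.aeval Λ g
  have hfix : ∀ (g r : Polynomial ℂ), aeval (P g) (toPar r) = toPar r := fun g r => by
    rw [toPar, ← Polynomial.aeval_algHom_apply]
    simp [P]
  have hP : ∀ g t, aeval (P g) (X (some t) : MvPolynomial (Option τ) ℂ) =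
      X (some t) + toPar (v t) * Polynomial.aeval Λ g := fun g t => aeval_X _ _
  have hΛ' : ∀ g, aeval (P g) Λ = Λ := by
    intro g
    calc aeval (P g) Λ
        = ∑ u, toPar (l u) * (X (some u) + toPar (v u) * Polynomial.aeval Λ g) := by
          rw [hΛ, map_sum]
          refine Finset.sum_congr rfl fun u _ => ?_
          rw [map_mul, hfix, hP, hΛ]
      _ = Λ + toPar (∑ u, l u * v u) * Polynomial.aeval Λ g := by
          simp only [map_sum, map_mul, mul_add, Finset.sum_add_distrib, Finset.sum_mul, mul_assoc]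
          rw [← hΛ]
      _ = Λ := by rw [h, map_zero, zero_mul, add_zero]
  have hcomp : ∀ g g', g + g' = 0 → ∀ o, aeval (P g) (P g' o) = X o := by
    intro g g' hg o
    cases o with
    | none => simp [P]
    | some t =>
      show aeval (P g) (X (some t) + toPar (v t) * Polynomial.aeval Λ g') = _
      rw [map_add, map_mul, hP, hfix, ← Polynomial.aeval_algHom_apply, hΛ', add_assoc,
        ← mul_add, ← map_add, hg, map_zero, mul_zero, add_zero]
  refine ⟨AlgEquiv.ofAlgHom (aeval (P g)) (aeval (P (-g)))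
    (algHom_ext fun o => by simpa using hcomp g (-g) (add_neg_cancel g) o)
    (algHom_ext fun o => by simpa using hcomp (-g) g (neg_add_cancel g) o), hfix g, hP g⟩

theorem spec_shear {E : MvPolynomial (Option τ) ℂ ≃ₐ[ℂ] MvPolynomial (Option τ) ℂ}
    {v l : τ → Polynomial ℂ} {g : Polynomial ℂ} (h1 : ∀ r, E (toPar r) = toPar r)
    (h2 : ∀ t, E (X (some t)) =
      X (some t) + toPar (v t) * Polynomial.aeval (∑ u, toPar (l u) * X (some u)) g)
    (c : ℂ) (p : MvPolynomial (Option τ) ℂ) (β : ℂ) (α : τ → ℂ)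
    (hp : spec c p = C β + ∑ t, C (α t) * X t) :
    spec c (E p) = C β + (∑ t, C (α t) * X t) + C (∑ t, α t * (v t).eval c) *
      Polynomial.aeval (∑ u, C ((l u).eval c) * X u) g := by
  set η : MvPolynomial τ ℂ →ₐ[ℂ] MvPolynomial τ ℂ := aeval fun t =>
    X t + C ((v t).eval c) * Polynomial.aeval (∑ u, C ((l u).eval c) * X u) g
  have hx : ∀ u, spec c (X (some u) : MvPolynomial (Option τ) ℂ) = X u := fun u => by simp [spec]
  have hcomp : (spec c).comp E.toAlgHom = η.comp (spec c) := algHom_ext fun o => by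
    cases o with
    | none =>
      show spec c (E (X none)) = η (spec c (X none))
      have e1 : (X none : MvPolynomial (Option τ) ℂ) = toPar Polynomial.X := by simp [toPar]
      rw [e1, h1, spec_toPar]
      simp [η]
    | some t =>
      show spec c (E (X (some t))) = η (spec c (X (some t)))
      rw [h2, map_add, map_mul, ← Polynomial.aeval_algHom_apply, map_sum]
      simp [spec_toPar, hx, η]
  have := DFunLike.congr_fun hcomp p
  simp only [AlgHom.comp_apply] at this
  refine this.trans ?_
  rw [hp]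
  simp only [η, map_add, map_sum, map_mul, aeval_C, aeval_X, algebraMap_eq, mul_add,
    Finset.sum_add_distrib, Finset.sum_mul, mul_assoc, add_assoc]

theorem spec_shear_linear {E : MvPolynomial (Option τ) ℂ ≃ₐ[ℂ] MvPolynomial (Option τ) ℂ}
    {v l : τ → Polynomial ℂ} (h1 : ∀ r, E (toPar r) = toPar r)
    (h2 : ∀ t, E (X (some t)) =
      X (some t) + toPar (v t) *
        Polynomial.aeval (∑ u, toPar (l u) * X (some u)) (Polynomial.X : Polynomial ℂ))
    (c : ℂ) (p : MvPolynomial (Option τ) ℂ) (β : ℂ) (α α' : τ → ℂ)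
    (hp : spec c p = C β + ∑ t, C (α t) * X t)
    (hα' : ∀ u, α' u = α u + (∑ t, α t * (v t).eval c) * (l u).eval c) :
    spec c (E p) = C β + ∑ t, C (α' t) * X t := by
  rw [spec_shear h1 h2 c p β α hp, Polynomial.aeval_X, Finset.mul_sum, add_assoc,
    ← Finset.sum_add_distrib]
  congr 1
  refine Finset.sum_congr rfl fun u _ => ?_
  rw [← mul_assoc, ← add_mul, ← map_mul, ← map_add, hα']

/-- Interpolation at the roots. -/
theorem exists_interp (S : Finset ℂ) (f : ℂ → ℂ) :
    ∃ p : Polynomial ℂ, ∀ c ∈ S, p.eval c = f c := by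
  classical
  exact ⟨Lagrange.interpolate S id f, fun c hc =>
    Lagrange.eval_interpolate_at_node f (fun _ _ _ _ h => h) hc⟩

/-- With two variables the values at the roots can be made a variable. -/
theorem exists_normal_family {t₀ t₁ : τ} (ht : t₁ ≠ t₀) (S : Finset ℂ)
    (b : MvPolynomial (Option τ) ℂ) (β : ℂ → ℂ) (α : ℂ → τ → ℂ)
    (hα : ∀ c ∈ S, α c ≠ 0) (hb : ∀ c ∈ S, spec c b = C (β c) + ∑ t, C (α c t) * X t) :
    ∃ E : MvPolynomial (Option τ) ℂ ≃ₐ[ℂ] MvPolynomial (Option τ) ℂ,
      (∀ r, E (toPar r) = toPar r) ∧ ∀ c ∈ S, spec c (E b) = X t₀ := by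
  classical
  -- make the coefficient of the pivot nonzero at every root
  have hpick : ∀ c, ∃ μ : τ → ℂ, μ t₀ = 0 ∧ (c ∈ S → α c t₀ + ∑ t, α c t * μ t ≠ 0) := by
    intro c
    by_cases h0 : α c t₀ = 0
    · by_cases hc : c ∈ S
      · obtain ⟨t, htne⟩ := Function.ne_iff.1 (hα c hc)
        have htt : t ≠ t₀ := fun h => htne (by rw [h, h0]; rfl)
        exact ⟨Pi.single t 1, Pi.single_eq_of_ne htt.symm _, fun _ => by
          simpa [h0, Pi.single_apply] using htne⟩
      · exact ⟨0, rfl, fun h => absurd h hc⟩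
    · exact ⟨0, rfl, fun _ => by simpa using h0⟩
  choose μ hμ0 hμ using hpick
  choose p hp using fun t => exists_interp S fun c => μ c t
  let v₁ : τ → Polynomial ℂ := fun t => if t = t₀ then 0 else p t
  have hv₁ : ∀ c ∈ S, ∀ t, (v₁ t).eval c = μ c t := by
    intro c hc t
    by_cases h : t = t₀
    · simp [v₁, h, hμ0]
    · simp [v₁, h, hp t c hc]
  obtain ⟨E₁, hE₁, hE₁'⟩ := exists_shear v₁ (Pi.single t₀ 1)
    (Finset.sum_eq_zero fun t _ => by
      by_cases h : t = t₀ <;> simp [v₁, h]) Polynomial.X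
  let α₁ : ℂ → τ → ℂ := fun c =>
    α c + Pi.single t₀ (∑ t, α c t * μ c t)
  have h₁ : ∀ c ∈ S, spec c (E₁ b) = C (β c) + ∑ t, C (α₁ c t) * X t := by
    intro c hc
    refine spec_shear_linear hE₁ hE₁' c b _ _ _ (hb c hc) fun u => ?_
    simp only [hv₁ c hc, α₁, Pi.add_apply, Pi.single_apply]
    split_ifs <;> simp
  have hα₁ : ∀ c ∈ S, α₁ c t₀ ≠ 0 := fun c hc => by simpa [α₁] using hμ c hc
  -- move everything onto the second variable
  choose q hq using fun t => exists_interp S fun c =>
    ((Pi.single t₁ 1 : τ → ℂ) t - α₁ c t) / α₁ c t₀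
  let l₂ : τ → Polynomial ℂ := fun t => if t = t₀ then 0 else q t
  obtain ⟨E₂, hE₂, hE₂'⟩ := exists_shear (Pi.single t₀ 1) l₂
    (by rw [Finset.sum_eq_single t₀ (fun t _ h => by simp [Pi.single_eq_of_ne h]) (by simp)]
        simp [l₂]) Polynomial.X
  let α₂ : ℂ → τ → ℂ := fun c => Pi.single t₁ 1 + Pi.single t₀ (α₁ c t₀)
  have h₂ : ∀ c ∈ S, spec c (E₂ (E₁ b)) = C (β c) + ∑ t, C (α₂ c t) * X t := by
    intro c hc
    refine spec_shear_linear hE₂ hE₂' c _ _ _ _ (h₁ c hc) fun u => ?_
    rw [Finset.sum_eq_single t₀ (fun t _ h => by simp [Pi.single_eq_of_ne h]) (by simp),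
      Pi.single_eq_same, Polynomial.eval_one, mul_one]
    by_cases h : u = t₀
    · subst h
      simp [l₂, α₂, Pi.single_eq_of_ne ht.symm]
    · simp [l₂, h, α₂, Pi.single_eq_of_ne h, hq u c hc, mul_div_cancel₀ _ (hα₁ c hc)]
  obtain ⟨p₃, hp₃⟩ := exists_interp S fun c => 1 - α₁ c t₀
  obtain ⟨E₃, hE₃, hE₃'⟩ := exists_shear (Pi.single t₁ p₃) (Pi.single t₀ 1)
    (by rw [Finset.sum_eq_single t₁ (fun t _ h => by simp [Pi.single_eq_of_ne h]) (by simp)]
        simp [Pi.single_eq_of_ne ht]) Polynomial.X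
  let α₃ : τ → ℂ := Pi.single t₁ 1 + Pi.single t₀ 1
  have h₃ : ∀ c ∈ S, spec c (E₃ (E₂ (E₁ b))) = C (β c) + ∑ t, C (α₃ t) * X t := by
    intro c hc
    refine spec_shear_linear hE₃ hE₃' c _ _ _ _ (h₂ c hc) fun u => ?_
    rw [Finset.sum_eq_single t₁ (fun t _ h => by simp [Pi.single_eq_of_ne h]) (by simp),
      Pi.single_eq_same, hp₃ c hc]
    by_cases h : u = t₀
    · subst h
      simp [α₂, α₃, Pi.single_eq_of_ne ht.symm, Pi.single_eq_of_ne ht]
    · simp [α₂, α₃, Pi.single_eq_of_ne h]
  obtain ⟨E₄, hE₄, hE₄'⟩ := exists_shear (Pi.single t₀ 1) (Pi.single t₁ (-1))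
    (by rw [Finset.sum_eq_single t₀ (fun t _ h => by simp [Pi.single_eq_of_ne h]) (by simp)]
        simp [Pi.single_eq_of_ne ht.symm]) Polynomial.X
  have h₄ : ∀ c ∈ S, spec c (E₄ (E₃ (E₂ (E₁ b)))) =
      C (β c) + ∑ t, C ((Pi.single t₀ 1 : τ → ℂ) t) * X t := by
    intro c hc
    refine spec_shear_linear hE₄ hE₄' c _ _ _ _ (h₃ c hc) fun u => ?_
    rw [Finset.sum_eq_single t₀ (fun t _ h => by simp [Pi.single_eq_of_ne h]) (by simp),
      Pi.single_eq_same, Polynomial.eval_one, mul_one]
    by_cases h : u = t₁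
    · subst h
      simp [α₃, Pi.single_eq_of_ne ht, Pi.single_eq_of_ne ht.symm]
    · simp [α₃, Pi.single_eq_of_ne h, Pi.single_eq_of_ne ht.symm]
  obtain ⟨p₅, hp₅⟩ := exists_interp S fun c => -β c
  obtain ⟨E₅, hE₅, hE₅'⟩ := exists_shear (Pi.single t₀ p₅) 0 (by simp) 1
  refine ⟨(((E₁.trans E₂).trans E₃).trans E₄).trans E₅,
    fun r => by simp [hE₁, hE₂, hE₃, hE₄, hE₅], fun c hc => ?_⟩
  simp only [AlgEquiv.trans_apply]
  rw [spec_shear hE₅ hE₅' c _ _ _ (h₄ c hc)]
  simp [Pi.single_apply, apply_ite, hp₅ c hc]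

section Lift

variable (t₁ : τ)

/-- Polynomials in the parameter times powers of linear forms with `t₁` occurring. -/
noncomputable def powerSpan : Submodule ℂ (MvPolynomial (Option τ) ℂ) :=
  Submodule.span ℂ {p | ∃ (r : Polynomial ℂ) (lam : τ → ℂ) (N : ℕ), lam t₁ ≠ 0 ∧
    p = toPar r * (∑ u, C (lam u) * X (some u)) ^ N}

theorem mem_powerSpan (p : MvPolynomial (Option τ) ℂ) : p ∈ powerSpan t₁ := by
  classical
  have h1 : (1 : MvPolynomial (Option τ) ℂ) ∈ powerSpan t₁ :=
    Submodule.subset_span ⟨1, fun _ => 1, 0, one_ne_zero, by simp⟩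
  have hx : ∀ p ∈ powerSpan t₁, ∀ o : Option τ, p * X o ∈ powerSpan t₁ := by
    intro p hp o
    induction hp using Submodule.span_induction with
    | mem p hp =>
      obtain ⟨r, lam, N, hl, rfl⟩ := hp
      cases o with
      | none => exact Submodule.subset_span ⟨r * Polynomial.X, lam, N, hl, by simp [toPar]; ring⟩
      | some t =>
        set L : MvPolynomial (Option τ) ℂ := ∑ u, C (lam u) * X (some u)
        let s : Fin (N + 2) → ℂ := fun j => (j : ℕ) * lam t₁
        have hs : Set.InjOn s (Finset.univ : Finset (Fin (N + 2))) := fun i _ j _ h =>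
          Fin.ext (Nat.cast_injective (mul_right_cancel₀ hl h))
        let μ : Fin (N + 2) → ℂ := fun j => (Lagrange.basis Finset.univ s j).coeff 1
        have hμ : ∀ i < N + 2, ∑ j, μ j * s j ^ i = if i = 1 then 1 else 0 := by
          intro i hi
          have := Lagrange.eq_interpolate (f := (Polynomial.X : Polynomial ℂ) ^ i) hs
            (by rw [Polynomial.degree_X_pow, Finset.card_univ, Fintype.card_fin]
                exact_mod_cast hi)
          have h2 := congrArg (fun q : Polynomial ℂ => q.coeff 1) this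
          simp only [Polynomial.coeff_X_pow, Lagrange.interpolate_apply, Polynomial.eval_pow,
            Polynomial.eval_X, Polynomial.finsetSum_coeff, Polynomial.coeff_C_mul] at h2
          rw [eq_comm] at h2
          simpa [μ, mul_comm, eq_comm] using h2
        have hsum : ∑ j, C (μ j) * (toPar r * (L + C (s j) * X (some t)) ^ (N + 1)) =
            C (N + 1 : ℂ) * (toPar r * L ^ N * X (some t)) := by
          calc ∑ j, C (μ j) * (toPar r * (L + C (s j) * X (some t)) ^ (N + 1))
              = ∑ i ∈ Finset.range (N + 1 + 1), C (∑ j, μ j * s j ^ i) *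
                  (toPar r * X (some t) ^ i * L ^ (N + 1 - i) *
                    (((N + 1).choose i : ℕ) : MvPolynomial (Option τ) ℂ)) := by
                simp only [add_comm L, add_pow, Finset.mul_sum, map_sum, map_mul, map_pow,
                  Finset.sum_mul, mul_pow]
                rw [Finset.sum_comm]
                refine Finset.sum_congr rfl fun i _ => Finset.sum_congr rfl fun j _ => ?_
                ring
            _ = _ := by
              rw [Finset.sum_eq_single 1]
              · rw [hμ 1 (by omega)]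
                simp
                ring
              · intro i hi hne
                rw [hμ i (by have := Finset.mem_range.1 hi; omega), if_neg hne]
                simp
              · simp
        have hmem : ∀ j, toPar r * (L + C (s j) * X (some t)) ^ (N + 1) ∈ powerSpan t₁ := by
          intro j
          refine Submodule.subset_span ⟨r, lam + Pi.single t (s j), N + 1, ?_, ?_⟩
          · by_cases h : t₁ = t
            · subst h
              have : ((j : ℕ) + 1 : ℂ) * lam t₁ ≠ 0 :=
                mul_ne_zero (Nat.cast_add_one_ne_zero _) hl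
              simpa [s, add_mul, add_comm] using this
            · simpa [Pi.single_eq_of_ne h] using hl
          · have e : ∑ u, C ((Pi.single t (s j) : τ → ℂ) u) *
                (X (some u) : MvPolynomial (Option τ) ℂ) = C (s j) * X (some t) := by
              rw [Finset.sum_eq_single t (fun u _ h => by simp [Pi.single_eq_of_ne h]) (by simp),
                Pi.single_eq_same]
            simp only [L, Pi.add_apply, map_add, add_mul, Finset.sum_add_distrib, e]
        have h3 : C (N + 1 : ℂ) * (toPar r * L ^ N * X (some t)) ∈ powerSpan t₁ := by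
          rw [← hsum]
          refine Submodule.sum_mem _ fun j _ => ?_
          rw [← smul_eq_C_mul]
          exact Submodule.smul_mem _ _ (hmem j)
        rw [← smul_eq_C_mul] at h3
        have h4 := Submodule.smul_mem _ (N + 1 : ℂ)⁻¹ h3
        rwa [inv_smul_smul₀ (Nat.cast_add_one_ne_zero N)] at h4
    | zero => simp
    | add p q _ _ hp hq => rw [add_mul]; exact Submodule.add_mem _ hp hq
    | smul a p _ hp => rw [smul_mul_assoc]; exact Submodule.smul_mem _ a hp
  induction p using MvPolynomial.induction_on with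
  | C a =>
    have := Submodule.smul_mem _ a h1
    rwa [smul_eq_C_mul, mul_one] at this
  | add p q hp hq => exact Submodule.add_mem _ hp hq
  | mul_X p i hp => exact hx p hp i

variable {t₁} {t₀ : τ}

/-- Shears realise any infinitesimal change of the pivot. -/
theorem exists_step (ht : t₁ ≠ t₀) (m : Polynomial ℂ) (h : MvPolynomial (Option τ) ℂ) :
    ∃ E : MvPolynomial (Option τ) ℂ ≃ₐ[ℂ] MvPolynomial (Option τ) ℂ,
      (∀ r, E (toPar r) = toPar r) ∧ (∀ p, toPar m ∣ E p - p) ∧
      toPar m ^ 2 ∣ E (X (some t₀)) - X (some t₀) + toPar m * h := by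
  classical
  have hh := mem_powerSpan t₁ h
  suffices H : ∀ a : ℂ, ∃ E : MvPolynomial (Option τ) ℂ ≃ₐ[ℂ] MvPolynomial (Option τ) ℂ,
      (∀ r, E (toPar r) = toPar r) ∧ (∀ p, toPar m ∣ E p - p) ∧
      toPar m ^ 2 ∣ E (X (some t₀)) - X (some t₀) + toPar m * (a • h) by
    simpa using H 1
  induction hh using Submodule.span_induction with
  | mem h hh =>
    obtain ⟨r, lam, N, hl, rfl⟩ := hh
    intro a
    let u : τ → ℂ := Pi.single t₀ 1 + Pi.single t₁ (-(lam t₀ / lam t₁))
    have hu : ∑ t, lam t * u t = 0 := by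
      simp [u, mul_add, Finset.sum_add_distrib, Pi.single_apply, mul_div_cancel₀ _ hl]
    obtain ⟨E, hE, hE'⟩ := exists_shear (fun t => Polynomial.C (-(a * u t)) * (m * r))
      (fun t => Polynomial.C (lam t)) (by
        simp only [← mul_assoc, ← map_mul, ← Finset.sum_mul, ← map_sum, mul_neg,
          Finset.sum_neg_distrib]
        rw [show ∑ t, lam t * a * u t = a * ∑ t, lam t * u t by
          rw [Finset.mul_sum]; exact Finset.sum_congr rfl fun t _ => by ring]
        simp [hu]) (Polynomial.X ^ N)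
    refine ⟨E, hE, fun p => ?_, ?_⟩
    · rw [equiv_apply_eq_aeval E p]
      conv => arg 2; arg 2; rw [← aeval_X_left_apply p]
      refine dvd_aeval_sub (fun o => ?_) p
      cases o with
      | none =>
        have := hE Polynomial.X
        simp [toPar] at this
        simp [this]
      | some t =>
        rw [hE', add_sub_cancel_left, map_mul, map_mul]
        exact dvd_mul_of_dvd_left (dvd_mul_of_dvd_right (dvd_mul_right _ _) _) _
    · rw [hE', smul_eq_C_mul]
      simp [u, Pi.single_eq_of_ne ht.symm, toPar]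
      refine ⟨0, ?_⟩
      ring
  | zero => exact fun a => ⟨AlgEquiv.refl, fun r => rfl, fun p => by simp, by simp⟩
  | add h h' _ _ ih ih' =>
    intro a
    obtain ⟨E, hE, hE1, hE2⟩ := ih a
    obtain ⟨E', hE', hE'1, hE'2⟩ := ih' a
    refine ⟨E.trans E', fun r => by simp [hE, hE'], fun p => ?_, ?_⟩
    · rw [AlgEquiv.trans_apply, show E' (E p) - p = (E' (E p) - E p) + (E p - p) by ring]
      exact dvd_add (hE'1 _) (hE1 p)
    · obtain ⟨D, hD⟩ := hE2
      obtain ⟨D', hD'⟩ := hE'2
      obtain ⟨K, hK⟩ := hE'1 (a • h)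
      rw [AlgEquiv.trans_apply, show E (X (some t₀)) = X (some t₀) - toPar m * (a • h) +
        toPar m ^ 2 * D by linear_combination hD]
      refine ⟨D' + E' D - K, ?_⟩
      simp only [map_add, map_sub, map_mul, map_pow, hE', smul_add]
      linear_combination hD' - toPar m * hK
  | smul c h _ ih =>
    intro a
    rw [smul_smul]
    exact ih (a * c)

/-- Lifting from the roots to their multiples. -/
theorem exists_lift (ht : t₁ ≠ t₀) (S : Finset ℂ) (b : MvPolynomial (Option τ) ℂ)
    (hb : ∀ c ∈ S, spec c b = X t₀) (j : ℕ) :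
    ∃ E : MvPolynomial (Option τ) ℂ ≃ₐ[ℂ] MvPolynomial (Option τ) ℂ,
      (∀ r, E (toPar r) = toPar r) ∧ toPar (rootPoly S ^ (j + 1)) ∣ E b - X (some t₀) := by
  induction j with
  | zero =>
    refine ⟨AlgEquiv.refl, fun r => rfl, ?_⟩
    rw [zero_add, pow_one]
    refine dvd_of_forall_spec S _ fun c hc => ?_
    rw [map_sub, show (AlgEquiv.refl : MvPolynomial (Option τ) ℂ ≃ₐ[ℂ] _) b = b from rfl, hb c hc]
    simp [spec]
  | succ j ih =>
    obtain ⟨E, hE, h, hh⟩ := ih
    obtain ⟨E', hE', hE'1, hE'2⟩ := exists_step ht (rootPoly S ^ (j + 1)) h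
    refine ⟨E.trans E', fun r => by simp [hE, hE'], ?_⟩
    obtain ⟨K, hK⟩ := hE'1 h
    obtain ⟨D, hD⟩ := hE'2
    refine (map_dvd toPar (pow_dvd_pow (rootPoly S) (show j + 1 + 1 ≤ (j + 1) * 2 by omega))).trans
      ⟨D + K, ?_⟩
    rw [AlgEquiv.trans_apply, show E b = X (some t₀) + toPar (rootPoly S ^ (j + 1)) * h by
      linear_combination hh, map_add, map_mul, hE', pow_mul, map_pow toPar (rootPoly S ^ (j + 1)) 2]
    linear_combination hD + toPar (rootPoly S ^ (j + 1)) * hK

end Lift

/-- The case of one variable. -/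
theorem isCoordinate_linExt_single (t₀ : τ) (h1 : ∀ t, t = t₀) {a : Polynomial ℂ} (ha : a ≠ 0)
    (b : MvPolynomial (Option τ) ℂ) (β : ℂ → ℂ) (α : ℂ → ℂ)
    (hα : ∀ c ∈ a.roots.toFinset, α c ≠ 0)
    (hb : ∀ c ∈ a.roots.toFinset, spec c b = C (β c) + C (α c) * X t₀) :
    IsCoordinate (linExt a b) := by
  classical
  set S := a.roots.toFinset
  -- substitution for the variable
  let σ₀ : MvPolynomial (Option τ) ℂ → (MvPolynomial (Option τ) ℂ →ₐ[ℂ]
      MvPolynomial (Option τ) ℂ) := fun q => aeval fun o => o.elim (X none) fun _ => q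
  have hfix : ∀ q r, σ₀ q (toPar r) = toPar r := fun q r => by
    show aeval _ (toPar r) = _
    rw [toPar, ← Polynomial.aeval_algHom_apply]
    simp
  have hcomp : ∀ q q' p, σ₀ q (σ₀ q' p) = σ₀ (σ₀ q q') p := fun q q' p => by
    have : (σ₀ q).comp (σ₀ q') = σ₀ (σ₀ q q') := algHom_ext fun o => by
      cases o <;> simp [σ₀]
    exact DFunLike.congr_fun this p
  have hid : ∀ p, σ₀ (X (some t₀)) p = p := fun p => by
    have : σ₀ (X (some t₀)) = AlgHom.id ℂ (MvPolynomial (Option τ) ℂ) := algHom_ext fun o => by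
      rcases o with _ | t
      · simp [σ₀]
      · simp [σ₀, h1 t]
    exact DFunLike.congr_fun this p
  have hz : ∀ q, σ₀ q (X (some t₀)) = q := fun q => by simp [σ₀]
  have hcong : ∀ (M : MvPolynomial (Option τ) ℂ) q q' p, M ∣ q - q' →
      M ∣ σ₀ q p - σ₀ q' p := fun M q q' p h =>
    dvd_aeval_sub (fun o => by cases o <;> simp [h]) p
  have hspec : ∀ c q p, spec c (σ₀ q p) =
      aeval (fun _ : τ => spec c q) (spec c p) := fun c q p => by
    have : (spec c).comp (σ₀ q) = (aeval fun _ : τ => spec c q).comp (spec c) :=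
      algHom_ext fun o => by cases o <;> simp [σ₀, spec]
    exact DFunLike.congr_fun this p
  obtain ⟨u, hu⟩ := exists_interp S fun c => (α c)⁻¹
  obtain ⟨w, hw⟩ := exists_interp S β
  set G₀ : MvPolynomial (Option τ) ℂ := toPar u * (X (some t₀) - toPar w)
  have hG₀ : ∀ c ∈ S, spec c G₀ = C (α c)⁻¹ * (X t₀ - C (β c)) := fun c hc => by
    simp only [G₀, map_mul, map_sub, spec_toPar, hu c hc, hw c hc]
    simp [spec]
  have hleft : ∀ j, ∃ G, toPar (rootPoly S ^ (j + 1)) ∣ σ₀ b G - X (some t₀) := by
    intro j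
    induction j with
    | zero =>
      refine ⟨G₀, ?_⟩
      rw [zero_add, pow_one]
      refine dvd_of_forall_spec S _ fun c hc => ?_
      have hC : C (α c)⁻¹ * C (α c) = (1 : MvPolynomial τ ℂ) := by
        rw [← map_mul, inv_mul_cancel₀ (hα c hc), map_one]
      rw [map_sub, hspec, hG₀ c hc]
      simp only [map_mul, map_sub, aeval_C, aeval_X, algebraMap_eq, hb c hc]
      simp only [spec, aeval_X, Option.elim_some]
      linear_combination X t₀ * hC
    | succ j ih =>
      obtain ⟨G, h, hh⟩ := ih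
      set M := toPar (τ := τ) (rootPoly S ^ (j + 1))
      refine ⟨G - M * σ₀ G h, ?_⟩
      obtain ⟨K, hK⟩ := hcong M (σ₀ b G) (X (some t₀)) h ⟨h, hh⟩
      rw [hid] at hK
      refine (map_dvd toPar (pow_dvd_pow (rootPoly S)
        (show j + 1 + 1 ≤ (j + 1) * 2 by omega))).trans ⟨-K, ?_⟩
      rw [map_sub, map_mul, hfix, hcomp, pow_mul, map_pow toPar (rootPoly S ^ (j + 1)) 2]
      linear_combination hh - M * hK
  have hright : ∀ j, ∃ H, toPar (rootPoly S ^ (j + 1)) ∣ σ₀ H b - X (some t₀) := by
    intro j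
    induction j with
    | zero =>
      refine ⟨G₀, ?_⟩
      rw [zero_add, pow_one]
      refine dvd_of_forall_spec S _ fun c hc => ?_
      have hC : C (α c) * C (α c)⁻¹ = (1 : MvPolynomial τ ℂ) := by
        rw [← map_mul, mul_inv_cancel₀ (hα c hc), map_one]
      rw [map_sub, hspec, hG₀ c hc, hb c hc]
      simp only [map_add, map_mul, aeval_C, aeval_X, algebraMap_eq]
      simp only [spec, aeval_X, Option.elim_some]
      linear_combination (X t₀ - C (β c)) * hC
    | succ j ih =>
      obtain ⟨H, h, hh⟩ := ih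
      set M := toPar (τ := τ) (rootPoly S ^ (j + 1))
      set q := X (some t₀) - M * h
      refine ⟨σ₀ q H, ?_⟩
      obtain ⟨K, hK⟩ := hcong M q (X (some t₀)) h ⟨-h, by simp [q]⟩
      rw [hid] at hK
      refine (map_dvd toPar (pow_dvd_pow (rootPoly S)
        (show j + 1 + 1 ≤ (j + 1) * 2 by omega))).trans ⟨K, ?_⟩
      rw [← hcomp, show σ₀ H b = X (some t₀) + M * h by linear_combination hh, map_add, map_mul,
        hfix, hz, pow_mul, map_pow toPar (rootPoly S ^ (j + 1)) 2]
      linear_combination M * hK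
  obtain ⟨G, hG⟩ := hleft a.natDegree
  obtain ⟨H, hH⟩ := hright a.natDegree
  have hdiv : toPar (τ := τ) a ∣ toPar (rootPoly S ^ (a.natDegree + 1)) :=
    map_dvd toPar ((dvd_pow_rootPoly ha).trans (pow_dvd_pow _ (Nat.le_succ _)))
  have hG' := hdiv.trans hG
  have hH' := hdiv.trans hH
  have hGH : toPar a ∣ G - H := by
    have e1 : σ₀ H (σ₀ b G) = σ₀ (σ₀ H b) G := hcomp _ _ _
    obtain ⟨K₁, hK₁⟩ := hcong _ (σ₀ H b) (X (some t₀)) G hH'
    obtain ⟨K₂, hK₂⟩ := hG'
    rw [hid] at hK₁
    have e2 := congrArg (σ₀ H) hK₂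
    rw [map_sub, map_mul, hfix, hz, e1] at e2
    exact ⟨σ₀ H K₂ - K₁, by linear_combination e2 - hK₁⟩
  have hH'' : toPar a ∣ σ₀ b H - X (some t₀) := by
    have h3 := map_dvd (σ₀ b) hGH
    rw [hfix, map_sub] at h3
    rw [show σ₀ b H - X (some t₀) = (σ₀ b G - X (some t₀)) - (σ₀ b G - σ₀ b H) by ring]
    exact dvd_sub hG' h3
  -- the automorphism
  let ν : MvPolynomial (Option (Option τ)) ℂ → (MvPolynomial (Option τ) ℂ →ₐ[ℂ]
      MvPolynomial (Option (Option τ)) ℂ) := fun q =>
    aeval fun o => o.elim (X (some none)) fun _ => q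
  set A : MvPolynomial (Option (Option τ)) ℂ := rename some (toPar a) with hA
  have hA0 : A ≠ 0 := by
    rw [hA, Ne, map_eq_zero_iff _ (rename_injective _ (Option.some_injective _))]
    exact toPar_ne_zero ha
  have hνfix : ∀ q r, ν q (toPar r) = rename some (toPar (τ := τ) r) := fun q r => by
    show aeval _ (toPar r) = _
    rw [toPar, ← Polynomial.aeval_algHom_apply, ← Polynomial.aeval_algHom_apply]
    simp
  have hν : ∀ q q' p, ν q (σ₀ q' p) = ν (ν q q') p := fun q q' p => by
    have : (ν q).comp (σ₀ q') = ν (ν q q') := algHom_ext fun o => by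
      cases o <;> simp [ν, σ₀]
    exact DFunLike.congr_fun this p
  have hνz : ν (X (some (some t₀))) = rename some := algHom_ext fun o => by
    rcases o with _ | t
    · simp [ν]
    · simp [ν, h1 t]
  have hνcong : ∀ (M : MvPolynomial (Option (Option τ)) ℂ) q q' p, M ∣ q - q' →
      M ∣ ν q p - ν q' p := fun M q q' p h =>
    dvd_aeval_sub (fun o => by cases o <;> simp [h]) p
  have hνm : ∀ (e : MvPolynomial (Option (Option τ)) ℂ →ₐ[ℂ] MvPolynomial (Option (Option τ)) ℂ),
      e (X (some none)) = X (some none) → ∀ q p, e (ν q p) = ν (e q) p := fun e he q p => by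
    have : e.comp (ν q) = ν (e q) := algHom_ext fun o => by cases o <;> simp [ν, he]
    exact DFunLike.congr_fun this p
  set F := linExt a b with hF
  obtain ⟨s, hs⟩ : A ∣ ν F H - X (some (some t₀)) := by
    have d1 : A ∣ ν F H - ν (ν (X (some (some t₀))) b) H :=
      hνcong A _ _ H ⟨X none, by rw [hνz, hF, linExt, hA]; ring⟩
    have d2 := map_dvd (ν (X (some (some t₀)))) hH''
    rw [hνfix, map_sub, hν, ← hA] at d2
    have d3 : ν (X (some (some t₀))) (X (some t₀)) = X (some (some t₀)) := by simp [ν]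
    rw [d3] at d2
    simpa using dvd_add d1 d2
  set Z : MvPolynomial (Option (Option τ)) ℂ := ν (X none) H - A * X (some (some t₀)) with hZ
  obtain ⟨Y, hY⟩ : A ∣ X none - ν Z b := by
    have d1 : A ∣ ν Z b - ν (ν (X none) H) b :=
      hνcong A _ _ b ⟨-X (some (some t₀)), by rw [hZ]; ring⟩
    have d2 := map_dvd (ν (X none)) hH'
    rw [hνfix, map_sub, hν, ← hA] at d2
    have d3 : ν (X none) (X (some t₀)) = X none := by simp [ν]
    rw [d3] at d2
    rw [show X none - ν Z b = -((ν Z b - ν (ν (X none) H) b) + (ν (ν (X none) H) b - X none)) by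
      ring]
    exact dvd_neg.2 (dvd_add d1 d2)
  let P : MvPolynomial (Option (Option τ)) ℂ →ₐ[ℂ] MvPolynomial (Option (Option τ)) ℂ :=
    aeval fun o => o.elim F fun o => o.elim (X (some none)) fun _ => s
  let Q : MvPolynomial (Option (Option τ)) ℂ →ₐ[ℂ] MvPolynomial (Option (Option τ)) ℂ :=
    aeval fun o => o.elim Y fun o => o.elim (X (some none)) fun _ => Z
  have hPy : P (X none) = F := by simp [P]
  have hPz : P (X (some (some t₀))) = s := by simp [P]
  have hQy : Q (X none) = Y := by simp [Q]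
  have hQz : Q (X (some (some t₀))) = Z := by simp [Q]
  have hPx : P (X (some none)) = X (some none) := by simp [P]
  have hQx : Q (X (some none)) = X (some none) := by simp [Q]
  have hpar : ∀ (e : MvPolynomial (Option (Option τ)) ℂ →ₐ[ℂ] MvPolynomial (Option (Option τ)) ℂ),
      e (X (some none)) = X (some none) → e A = A := fun e he => by
    rw [hA]
    conv_lhs => rw [← hνfix (X none), hνm e he]
    rw [hνfix]
  have hren : ∀ (e : MvPolynomial (Option (Option τ)) ℂ →ₐ[ℂ] MvPolynomial (Option (Option τ)) ℂ),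
      e (X (some none)) = X (some none) →
      ∀ p, e (rename some p) = ν (e (X (some (some t₀)))) p := fun e he p => by
    rw [← hνz, hνm e he]
  have hPZ : P Z = X (some (some t₀)) := by
    rw [hZ, map_sub, map_mul, hνm P hPx, hPy, hpar P hPx, hPz]
    linear_combination hs
  have hQF : Q F = X none := by
    rw [hF, linExt, ← hA, map_add, map_mul, hpar Q hQx, hQy, hren Q hQx, hQz]
    linear_combination -hY
  have hPY : P Y = X none := by
    refine mul_left_cancel₀ hA0 ?_
    have := congrArg P hY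
    rw [map_sub, map_mul, hpar P hPx, hPy, hνm P hPx, hPZ, hνz, hF, linExt, ← hA] at this
    linear_combination -this
  have hQs : Q s = X (some (some t₀)) := by
    refine mul_left_cancel₀ hA0 ?_
    have := congrArg Q hs
    rw [map_sub, map_mul, hpar Q hQx, hνm Q hQx, hQF, hQz, hZ] at this
    linear_combination -this
  let E : MvPolynomial (Option (Option τ)) ℂ ≃ₐ[ℂ] MvPolynomial (Option (Option τ)) ℂ :=
    AlgEquiv.ofAlgHom Q P
      (algHom_ext fun o => by
        rcases o with _ | _ | t
        · simp [hPy, hQF]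
        · simp [hPx, hQx]
        · simp [h1 t, hPz, hQs])
      (algHom_ext fun o => by
        rcases o with _ | _ | t
        · simp [hQy, hPY]
        · simp [hPx, hQx]
        · simp [h1 t, hQz, hPZ])
  exact ⟨E, none, hQF⟩

/-- A linear extension with any nonzero coefficient is a coordinate as soon as its values at the
roots are coordinates. -/
theorem isCoordinate_linExt {a : Polynomial ℂ} (ha : a ≠ 0) (b : MvPolynomial (Option τ) ℂ)
    (hb : ∀ c, a.IsRoot c → IsCoordinate (spec c b)) : IsCoordinate (linExt a b) := by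
  classical
  set S := a.roots.toFinset
  have hS : ∀ c, c ∈ S ↔ a.IsRoot c := fun c => by simp [S, ha]
  rcases S.eq_empty_or_nonempty with hSe | ⟨c₀, hc₀⟩
  · have hdeg : a.degree = 0 := by
      by_contra hne
      obtain ⟨c, hc⟩ := IsAlgClosed.exists_root a hne
      simpa [hSe] using (hS c).2 hc
    have ha' := Polynomial.eq_C_of_degree_eq_zero hdeg
    have h0 : a.coeff 0 ≠ 0 := fun h => ha (by rw [ha', h, map_zero])
    refine isCoordinate_of_direction (v := fun o => o.elim (a.coeff 0)⁻¹ fun _ => 0) ?_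
    have hn : pderiv (none : Option (Option τ)) (rename some b) = 0 := by
      refine pderiv_eq_zero_of_notMem_vars fun hi => ?_
      obtain ⟨x, -, hx⟩ := Finset.mem_image.1 (vars_rename _ b hi)
      exact (Option.some_ne_none x hx).elim
    rw [ha']
    simp [Fintype.sum_option, linExt, toPar, hn, ← map_mul, h0, algebraMap_eq]
  choose θ β α hθ hα hθb using fun c (hc : c ∈ S) => exists_normal (hb c ((hS c).1 hc))
  let θ' : ℂ → (MvPolynomial τ ℂ ≃ₐ[ℂ] MvPolynomial τ ℂ) := fun c =>
    if hc : c ∈ S then (θ c hc).symm else AlgEquiv.refl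
  obtain ⟨Φ, hΦ1, hΦ2⟩ := exists_interpolation_all S θ' fun c hc => by
    simp only [θ', dif_pos hc]
    exact Normalised.symm _ (hθ c hc)
  let β' : ℂ → ℂ := fun c => if hc : c ∈ S then β c hc else 0
  let α' : ℂ → τ → ℂ := fun c => if hc : c ∈ S then α c hc else 0
  have hΦb : ∀ c ∈ S, spec c (Φ b) = C (β' c) + ∑ t, C (α' c t) * X t := fun c hc => by
    rw [hΦ2 c hc]
    simp only [θ', β', α', dif_pos hc]
    rw [← hθb c hc, AlgEquiv.symm_apply_apply]
  have hα' : ∀ c ∈ S, α' c ≠ 0 := fun c hc => by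
    simp only [α', dif_pos hc]
    exact hα c hc
  obtain ⟨E, hE0, hE⟩ := exists_extend Φ
  refine isCoordinate_of_equiv E ?_
  have hEf : E (linExt a b) = linExt a (Φ b) := by simp [linExt, hE0, hE, hΦ1]
  rw [hEf]
  obtain ⟨t₀, -⟩ := Function.ne_iff.1 (hα' c₀ hc₀)
  by_cases htwo : ∃ t₁, t₁ ≠ t₀
  · obtain ⟨t₁, ht⟩ := htwo
    obtain ⟨E₁, hE₁, hE₁'⟩ := exists_normal_family ht S (Φ b) β' α' hα' hΦb
    obtain ⟨E₂, hE₂, hE₂'⟩ := exists_lift ht S (E₁ (Φ b)) hE₁' a.natDegree
    obtain ⟨h, hh⟩ := ((map_dvd (toPar (τ := τ))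
      ((dvd_pow_rootPoly ha).trans (pow_dvd_pow _ (Nat.le_succ _)))).trans hE₂')
    obtain ⟨E', hE'0, hE'⟩ := exists_extend (E₁.trans E₂)
    obtain ⟨T, hT0, hT⟩ := exists_shift (-h)
    refine isCoordinate_of_equiv E' (isCoordinate_of_equiv T ?_)
    refine isCoordinate_of_direction (v := Pi.single (some (some t₀)) 1) ?_
    have hf : T (E' (linExt a (Φ b))) = rename some (toPar a) * X none + X (some (some t₀)) := by
      simp only [linExt, map_add, map_mul, hE', hE'0, AlgEquiv.trans_apply, hE₁, hE₂, hT0, hT]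
      rw [show E₂ (E₁ (Φ b)) = X (some t₀) + toPar a * h by linear_combination hh]
      simp only [map_add, map_mul, map_neg, rename_X]
      ring
    have hn : pderiv (some (some t₀)) (rename some (toPar (τ := τ) a)) = 0 := by
      have e : ∀ q : Polynomial ℂ, pderiv (some t₀) (toPar (τ := τ) q) = 0 := fun q => by
        induction q using Polynomial.induction_on' with
        | add q r hq hr => simp [hq, hr]
        | monomial n a => simp [toPar, Polynomial.aeval_monomial, algebraMap_eq, pderiv_pow]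
      rw [pderiv_rename (Option.some_injective _), e, map_zero]
    rw [hf, Finset.sum_eq_single (some (some t₀))
      (fun i _ h => by simp [Pi.single_eq_of_ne h]) (by simp), Pi.single_eq_same]
    simp [hn]
  · push Not at htwo
    refine isCoordinate_linExt_single t₀ htwo ha (Φ b) β' (fun c => α' c t₀)
      (fun c hc h0 => hα' c hc (funext fun t => by rw [htwo t]; exact h0)) fun c hc => ?_
    rw [hΦb c hc, Finset.sum_eq_single t₀ (fun t _ h => absurd (htwo t) h)
      (fun h => absurd (Finset.mem_univ _) h)]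

end Vale.Agent.P295
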