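import Vale.Agent.P295.Residual
import Mathlib.NumberTheory.LegendreSymbol.Complex
import Mathlib.RingTheory.Jacobson.Ring
import Mathlib.RingTheory.FiniteType
import Mathlib.FieldTheory.Finite.Basic
import Mathlib.Algebra.MvPolynomial.Monad
import Mathlib.Algebra.Polynomial.Lifts
import Mathlib.Analysis.Complex.Basic
import Mathlib.GroupTheory.Finiteness
import Mathlib.GroupTheory.FiniteAbelian.Basic

/-!
Exponential sums of complex polynomials over the finite residue fields of their rings of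
coefficients.
-/

namespace Vale.Agent.P295

open MvPolynomial

variable {σ σ' τ : Type} {R : Subring ℂ} {K : Type} [Field K]

/-- `ρ` on the complex numbers lying in `R`. -/
noncomputable def rOf (ρ : R →+* K) (t : ℂ) : K := by
  classical
  exact if h : t ∈ R then ρ ⟨t, h⟩ else 0

theorem rOf_of_mem (ρ : R →+* K) {t : ℂ} (h : t ∈ R) : rOf ρ t = ρ ⟨t, h⟩ := by
  simp [rOf, h]

theorem rOf_add (ρ : R →+* K) {a b : ℂ} (ha : a ∈ R) (hb : b ∈ R) :
    rOf ρ (a + b) = rOf ρ a + rOf ρ b := by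
  rw [rOf_of_mem ρ ha, rOf_of_mem ρ hb, rOf_of_mem ρ (add_mem ha hb), ← map_add]
  rfl

theorem rOf_sub (ρ : R →+* K) {a b : ℂ} (ha : a ∈ R) (hb : b ∈ R) :
    rOf ρ (a - b) = rOf ρ a - rOf ρ b := by
  rw [rOf_of_mem ρ ha, rOf_of_mem ρ hb, rOf_of_mem ρ (sub_mem ha hb), ← map_sub]
  rfl

theorem rOf_mul (ρ : R →+* K) {a b : ℂ} (ha : a ∈ R) (hb : b ∈ R) :
    rOf ρ (a * b) = rOf ρ a * rOf ρ b := by
  rw [rOf_of_mem ρ ha, rOf_of_mem ρ hb, rOf_of_mem ρ (mul_mem ha hb), ← map_mul]
  rfl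

theorem rOf_one (ρ : R →+* K) : rOf ρ 1 = 1 := by
  rw [rOf_of_mem ρ (one_mem R)]
  exact map_one ρ

theorem rOf_zero (ρ : R →+* K) : rOf ρ 0 = 0 := by
  rw [rOf_of_mem ρ (zero_mem R)]
  exact map_zero ρ

theorem rOf_ne_zero (ρ : R →+* K) {a : ℂ} (ha : a ∈ R) (ha' : a⁻¹ ∈ R) (h : a ≠ 0) :
    rOf ρ a ≠ 0 := by
  intro h0
  have := rOf_mul ρ ha ha'
  rw [mul_inv_cancel₀ h, rOf_one, h0, zero_mul] at this
  exact one_ne_zero this

/-- `f'` has coefficients in `R` and is `f` over the complex numbers. -/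
def Lifts (f' : MvPolynomial σ R) (f : MvPolynomial σ ℂ) : Prop := map R.subtype f' = f

theorem Lifts.unique {f' g' : MvPolynomial σ R} {f : MvPolynomial σ ℂ} (h : Lifts f' f)
    (h' : Lifts g' f) : f' = g' :=
  map_injective R.subtype Subtype.val_injective (h.trans h'.symm)

theorem exists_lifts [DecidableEq ℂ] {f : MvPolynomial σ ℂ}
    (h : (f.coeffs : Set ℂ) ⊆ R) : ∃ f' : MvPolynomial σ R, Lifts f' f := by
  have : f ∈ Set.range (map R.subtype) := by
    rw [mem_range_map_iff_coeffs_subset]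
    simpa using h
  exact this

theorem Lifts.bind {P' : σ → MvPolynomial τ R} {P : σ → MvPolynomial τ ℂ}
    (hP : ∀ i, Lifts (P' i) (P i)) {f' : MvPolynomial σ R} {f : MvPolynomial σ ℂ}
    (hf : Lifts f' f) : Lifts (bind₁ P' f') (aeval P f) := by
  rw [Lifts, map_bind₁, hf, funext hP]
  rfl

variable [Fintype K]

/-- The quadratic Gauss sum. -/
noncomputable def quadSum (ψ : AddChar K ℂ) (s : K) : ℂ := ∑ u : K, ψ (s * u ^ 2)

/-- The value of the term `(t, e, ε)`: the character at `t` times `q ^ e` times the `ε`th power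
of the Gauss sum. -/
noncomputable def termVal (ρ : R →+* K) (ψ : AddChar K ℂ) (s : K) (l : ℂ × ℕ × Bool) : ℂ :=
  ψ (s * rOf ρ l.1) * (Fintype.card K : ℂ) ^ l.2.1 * if l.2.2 then quadSum ψ s else 1

/-- The exponential sum of `f'`. -/
noncomputable def expSum [Fintype σ] (ρ : R →+* K) (ψ : AddChar K ℂ) (s : K)
    (f' : MvPolynomial σ R) : ℂ := by
  classical
  exact ∑ z : σ → K, ψ (s * eval₂ ρ z f')

/-- The exponential sums of `f` are the sums of the terms in `L` as soon as `R` contains `T`. -/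
def SumFormula [Fintype σ] (f : MvPolynomial σ ℂ) (L : List (ℂ × ℕ × Bool)) (T : Finset ℂ) :
    Prop :=
  ∀ (R : Subring ℂ), (T : Set ℂ) ⊆ R → (∀ l ∈ L, l.1 ∈ R) ∧
    ∀ (K : Type) [Field K] [Fintype K] (ρ : R →+* K) (ψ : AddChar K ℂ), ψ ≠ 1 →
      ∀ s : K, s ≠ 0 → ∀ f' : MvPolynomial σ R, Lifts f' f →
        expSum ρ ψ s f' = (L.map (termVal ρ ψ s)).sum

/-- The exponential sums are given by such a list, and an empty list means a coordinate. -/
def Tame [Fintype σ] (f : MvPolynomial σ ℂ) : Prop :=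
  ∃ L T, SumFormula f L T ∧ (L = [] → IsCoordinate f)

/-- Product of two terms. -/
def mulTerm (a b : ℂ × ℕ × Bool) : ℂ × ℕ × Bool :=
  (a.1 + b.1, a.2.1 + b.2.1 + (if a.2.2 && b.2.2 then 1 else 0), a.2.2 ^^ b.2.2)

theorem sum_char_mul {ψ : AddChar K ℂ} (hψ : ψ ≠ 1) [DecidableEq K] (b : K) :
    ∑ x : K, ψ (x * b) = if b = 0 then (Fintype.card K : ℂ) else 0 := by
  rw [AddChar.sum_mulShift b (AddChar.IsPrimitive.of_ne_one hψ)]
  split_ifs <;> simp

theorem quadSum_mul_self {ψ : AddChar K ℂ} (hψ : ψ ≠ 1) {s : K} (hs : s ≠ 0) {i : K}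
    (hi : i * i = -1) (h2 : (2 : K) ≠ 0) :
    quadSum ψ s * quadSum ψ s = (Fintype.card K : ℂ) := by
  classical
  let e : K × K ≃ K × K :=
    { toFun := fun p => (p.1 + i * p.2, p.1 - i * p.2)
      invFun := fun p => ((p.1 + p.2) / 2, -i * (p.1 - p.2) / 2)
      left_inv := fun p => by
        ext <;> field_simp
        · ring
        · linear_combination (-2 * p.2) * hi
      right_inv := fun p => by
        ext <;> field_simp
        · linear_combination (-(p.1 - p.2)) * hi
        · linear_combination (p.1 - p.2) * hi }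
  calc quadSum ψ s * quadSum ψ s = ∑ p : K × K, ψ (s * (p.1 ^ 2 + p.2 ^ 2)) := by
        rw [quadSum, Finset.sum_mul_sum, Fintype.sum_prod_type]
        simp [mul_add, AddChar.map_add_eq_mul]
    _ = ∑ p : K × K, ψ (p.2 * (s * p.1)) := by
        refine Fintype.sum_equiv e _ _ fun p => congrArg ψ ?_
        show s * (p.1 ^ 2 + p.2 ^ 2) = (p.1 - i * p.2) * (s * (p.1 + i * p.2))
        linear_combination (s * p.2 ^ 2) * hi
    _ = (Fintype.card K : ℂ) := by
        rw [Fintype.sum_prod_type]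
        simp [sum_char_mul hψ, hs]

/-- What is needed of `R` for the Gauss sums. -/
theorem gauss_sq {ψ : AddChar K ℂ} (hψ : ψ ≠ 1) {s : K} (hs : s ≠ 0) (ρ : R →+* K)
    (hI : Complex.I ∈ R) (h2 : (2 : ℂ)⁻¹ ∈ R) :
    quadSum ψ s * quadSum ψ s = (Fintype.card K : ℂ) := by
  refine quadSum_mul_self hψ hs (i := rOf ρ Complex.I) ?_ ?_
  · have h1 : rOf ρ (-1) = -1 := by
      rw [rOf_of_mem ρ (neg_mem (one_mem R))]
      exact (map_neg ρ 1).trans (by rw [map_one])
    rw [← rOf_mul ρ hI hI, Complex.I_mul_I, h1]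
  · have h22 : (2 : ℂ) ∈ R := by
      simpa using natCast_mem R 2
    have := rOf_ne_zero ρ h22 h2 two_ne_zero
    rwa [show rOf ρ 2 = 2 by
      rw [show (2 : ℂ) = 1 + 1 by norm_num, rOf_add ρ (one_mem R) (one_mem R), rOf_one]
      norm_num] at this

theorem termVal_mulTerm {ψ : AddChar K ℂ} (hψ : ψ ≠ 1) {s : K} (hs : s ≠ 0) (ρ : R →+* K)
    (hI : Complex.I ∈ R) (h2 : (2 : ℂ)⁻¹ ∈ R) {a b : ℂ × ℕ × Bool} (ha : a.1 ∈ R) (hb : b.1 ∈ R) :
    termVal ρ ψ s (mulTerm a b) = termVal ρ ψ s a * termVal ρ ψ s b := by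
  have hG := gauss_sq hψ hs ρ hI h2
  obtain ⟨t, e, ε⟩ := a
  obtain ⟨t', e', ε'⟩ := b
  simp only [termVal, mulTerm, rOf_add ρ ha hb, mul_add, AddChar.map_add_eq_mul]
  cases ε <;> cases ε' <;> simp [pow_add] <;> try ring
  linear_combination
    (-(ψ (s * rOf ρ t) * ψ (s * rOf ρ t') * (Fintype.card K : ℂ) ^ e *
      (Fintype.card K : ℂ) ^ e')) * hG

theorem expSum_eq [Fintype σ] [DecidableEq σ] (ρ : R →+* K) (ψ : AddChar K ℂ) (s : K)
    (f' : MvPolynomial σ R) : expSum ρ ψ s f' = ∑ z : σ → K, ψ (s * eval₂ ρ z f') := by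
  unfold expSum
  exact Finset.sum_congr (by ext; simp) fun _ _ => rfl

theorem expSum_X [Fintype σ] {ψ : AddChar K ℂ} (hψ : ψ ≠ 1) {s : K} (hs : s ≠ 0) (ρ : R →+* K)
    (i : σ) : expSum ρ ψ s (X i : MvPolynomial σ R) = 0 := by
  classical
  rw [expSum_eq]
  simp only [eval₂_X]
  rw [← Equiv.sum_comp (Equiv.funSplitAt i K).symm, Fintype.sum_prod_type, Finset.sum_comm]
  refine Finset.sum_eq_zero fun _ _ => ?_
  simpa [mul_comm s, hs, Equiv.funSplitAt, Equiv.piSplitAt] using sum_char_mul hψ s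

/-- Exponential sums are invariant under automorphisms. -/
theorem expSum_bind [Fintype σ] (ρ : R →+* K) (ψ : AddChar K ℂ) (s : K)
    (P' Q' : σ → MvPolynomial σ R) (hPQ : ∀ j, bind₁ P' (Q' j) = X j)
    (hQP : ∀ j, bind₁ Q' (P' j) = X j) (f' : MvPolynomial σ R) :
    expSum ρ ψ s (bind₁ P' f') = expSum ρ ψ s f' := by
  classical
  have hev : ∀ (A : σ → MvPolynomial σ R) (z : σ → K) g,
      eval₂ ρ z (bind₁ A g) = eval₂ ρ (fun j => eval₂ ρ z (A j)) g := fun A z g =>
    eval₂Hom_bind₁ ρ z A g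
  let e : (σ → K) ≃ (σ → K) :=
    { toFun := fun z j => eval₂ ρ z (P' j)
      invFun := fun z j => eval₂ ρ z (Q' j)
      left_inv := fun z => funext fun j => by
        show eval₂ ρ (fun j => eval₂ ρ z (P' j)) (Q' j) = z j
        rw [← hev, hPQ, eval₂_X]
      right_inv := fun z => funext fun j => by
        show eval₂ ρ (fun j => eval₂ ρ z (Q' j)) (P' j) = z j
        rw [← hev, hQP, eval₂_X] }
  rw [expSum_eq, expSum_eq]
  refine Fintype.sum_equiv e _ _ fun z => ?_
  rw [hev]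
  rfl

theorem expSum_of_equiv [Fintype σ] [DecidableEq ℂ]
    (φ : MvPolynomial σ ℂ ≃ₐ[ℂ] MvPolynomial σ ℂ) {f : MvPolynomial σ ℂ}
    (ρ : R →+* K) (ψ : AddChar K ℂ) (s : K) (hP : ∀ j, ((φ (X j)).coeffs : Set ℂ) ⊆ R)
    (hQ : ∀ j, ((φ.symm (X j)).coeffs : Set ℂ) ⊆ R) {f' g' : MvPolynomial σ R}
    (hf : Lifts f' f) (hg : Lifts g' (φ f)) : expSum ρ ψ s g' = expSum ρ ψ s f' := by
  choose P' hP' using fun j => exists_lifts (hP j)
  choose Q' hQ' using fun j => exists_lifts (hQ j)
  have hX : ∀ j, Lifts (X j : MvPolynomial σ R) (X j) := fun j => map_X _ j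
  have h1 := Lifts.bind hP' hf
  rw [← equiv_apply_eq_aeval] at h1
  rw [hg.unique h1]
  refine expSum_bind ρ ψ s P' Q' (fun j => ?_) (fun j => ?_) f'
  · have := Lifts.bind hP' (hQ' j)
    rw [← equiv_apply_eq_aeval, φ.apply_symm_apply] at this
    exact this.unique (hX j)
  · have := Lifts.bind hQ' (hP' j)
    rw [← equiv_apply_eq_aeval, φ.symm_apply_apply] at this
    exact this.unique (hX j)

/-- All the coefficients of an automorphism and of its inverse. -/
noncomputable def autCoeffs [Fintype σ] [DecidableEq ℂ]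
    (φ : MvPolynomial σ ℂ ≃ₐ[ℂ] MvPolynomial σ ℂ) : Finset ℂ :=
  (Finset.univ.biUnion fun j => (φ (X j)).coeffs) ∪
    Finset.univ.biUnion fun j => (φ.symm (X j)).coeffs

theorem coeffs_subset_of_autCoeffs [Fintype σ] [DecidableEq ℂ]
    {φ : MvPolynomial σ ℂ ≃ₐ[ℂ] MvPolynomial σ ℂ} (h : (autCoeffs φ : Set ℂ) ⊆ R) :
    (∀ j, ((φ (X j)).coeffs : Set ℂ) ⊆ R) ∧ ∀ j, ((φ.symm (X j)).coeffs : Set ℂ) ⊆ R := by
  refine ⟨fun j c hc => h ?_, fun j c hc => h ?_⟩
  · exact Finset.mem_union_left _ (Finset.mem_biUnion.2 ⟨j, Finset.mem_univ j, hc⟩)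
  · exact Finset.mem_union_right _ (Finset.mem_biUnion.2 ⟨j, Finset.mem_univ j, hc⟩)

theorem isJacobsonRing_int : IsJacobsonRing ℤ := by
  refine isJacobsonRing_iff_prime_eq.2 fun P hP => ?_
  by_cases h : P = ⊥
  · subst h
    refine le_antisymm (fun x hx => ?_) Ideal.le_jacobson
    have := Ideal.mem_jacobson_bot.1 hx 3
    rw [Int.isUnit_iff] at this
    show x = 0
    omega
  · have := hP.isMaximal h
    exact Ideal.jacobson_eq_self_of_isMaximal

/-- Finitely many complex numbers lie in a subring mapping to a finite field. -/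
theorem exists_residueField (T : Finset ℂ) :
    ∃ (R : Subring ℂ), (T : Set ℂ) ⊆ R ∧ ∃ (K : Type) (_ : Field K) (_ : Fintype K)
      (_ : R →+* K) (ψ : AddChar K ℂ), ψ ≠ 1 := by
  classical
  let S : Subalgebra ℤ ℂ := Algebra.adjoin ℤ (T : Set ℂ)
  have hS : Algebra.FiniteType ℤ S :=
    (Subalgebra.fg_iff_finiteType S).1 (Subalgebra.fg_adjoin_finset T)
  obtain ⟨m, hm⟩ := Ideal.exists_maximal S
  let := Ideal.Quotient.field m
  have : IsJacobsonRing ℤ := isJacobsonRing_int
  have hK : Algebra.FiniteType ℤ (S ⧸ m) :=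
    Algebra.FiniteType.of_surjective (f := Ideal.Quotient.mkₐ ℤ m) Ideal.Quotient.mk_surjective
  have hfin : Module.Finite ℤ (S ⧸ m) := finite_of_finite_type_of_isJacobsonRing ℤ (S ⧸ m)
  have hp : ringChar (S ⧸ m) ≠ 0 := by
    intro h0
    have : CharP (S ⧸ m) 0 := ringChar.eq_iff.1 h0
    have : CharZero (S ⧸ m) := CharP.charP_to_charZero _
    exact Int.not_isField (isField_of_isIntegral_of_isField
      (FaithfulSMul.algebraMap_injective ℤ (S ⧸ m)) (Semifield.toIsField _))
  have : Finite (S ⧸ m) := by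
    have hfg : AddGroup.FG (S ⧸ m) := (Module.Finite.iff_addGroup_fg).1 hfin
    refine AddCommGroup.finite_of_fg_isAddTorsion _ fun x =>
      isOfFinAddOrder_iff_nsmul_eq_zero.2 ⟨ringChar (S ⧸ m), Nat.pos_of_ne_zero hp, ?_⟩
    rw [nsmul_eq_mul, ringChar.Nat.cast_ringChar, zero_mul]
  refine ⟨S.toSubring, Algebra.subset_adjoin, S ⧸ m, inferInstance, Fintype.ofFinite _,
    Ideal.Quotient.mk m, AddChar.FiniteField.primitiveChar_to_Complex (S ⧸ m), fun h => ?_⟩
  have := AddChar.FiniteField.primitiveChar_to_Complex_isPrimitive (S ⧸ m) one_ne_zero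
  rw [h] at this
  exact this (by ext; simp [AddChar.mulShift_apply])

/-- The list of terms of a stable coordinate is empty. -/
theorem eq_nil_of_sum_zero (L : List (ℂ × ℕ × Bool)) (T : Finset ℂ)
    (h : ∀ (R : Subring ℂ), (T : Set ℂ) ⊆ R → (∀ l ∈ L, l.1 ∈ R) ∧
      ∀ (K : Type) [Field K] [Fintype K] (ρ : R →+* K) (ψ : AddChar K ℂ), ψ ≠ 1 →
        ∀ s : K, s ≠ 0 → (L.map (termVal ρ ψ s)).sum = 0) : L = [] := by
  classical
  by_contra hL
  obtain ⟨l₀, hl₀, hmax⟩ := Finset.exists_max_image L.toFinset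
    (fun l => 2 * l.2.1 + if l.2.2 then 1 else 0)
    (by rwa [List.toFinset_nonempty_iff])
  rw [List.mem_toFinset] at hl₀
  simp only [List.mem_toFinset] at hmax
  set N := L.length with hN
  set ts := (L.map fun l => l.1).toFinset with hts
  obtain ⟨R, hR, K, _, _, ρ, ψ, hψ⟩ := exists_residueField
    (T ∪ {Complex.I, (2 : ℂ)⁻¹, ((N + 1).factorial : ℂ)⁻¹} ∪
      ts.image fun t => (t - l₀.1)⁻¹)
  simp only [Finset.coe_union, Finset.coe_insert, Finset.coe_singleton, Finset.coe_image,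
    Set.union_subset_iff, Set.insert_subset_iff, Set.singleton_subset_iff,
    Set.image_subset_iff] at hR
  obtain ⟨⟨hT, hI, h2, hf⟩, hd⟩ := hR
  obtain ⟨hmem, hsum⟩ := h R hT
  set q := Fintype.card K with hq
  have hqN : N + 1 < q := by
    by_contra hle
    push Not at hle
    have h0 : ((N + 1).factorial : K) = 0 := by
      obtain ⟨k, hk⟩ := Nat.dvd_factorial Fintype.card_pos hle
      rw [hk, Nat.cast_mul, FiniteField.cast_card_eq_zero, zero_mul]
    refine rOf_ne_zero ρ (natCast_mem R _) hf (Nat.cast_ne_zero.2 (Nat.factorial_ne_zero _)) ?_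
    rw [rOf_of_mem ρ (natCast_mem R _)]
    exact (map_natCast ρ _).trans h0
  set m : ℕ := l₀.2.1 + (if l₀.2.2 then 1 else 0) with hm
  set b : ℂ × ℕ × Bool := (-l₀.1, 0, l₀.2.2) with hb
  have hbR : b.1 ∈ R := neg_mem (hmem l₀ hl₀)
  -- the contribution of each term is an integer bounded below
  have hterm : ∀ l ∈ L, ∃ v : ℤ, -((q : ℤ) ^ m) ≤ v ∧
      (l = l₀ → v = ((q : ℤ) - 1) * (q : ℤ) ^ m) ∧
      ∑ s ∈ Finset.univ.erase (0 : K), termVal ρ ψ s (mulTerm l b) = (v : ℂ) := by
    intro l hl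
    have hw := hmax l hl
    obtain ⟨t, e, ε⟩ := l
    dsimp only at hw
    set d := rOf ρ (mulTerm (t, e, ε) b).1 with hd'
    have hdt : t ≠ l₀.1 → d ≠ 0 := fun hne => by
      have h1 : t - l₀.1 ∈ R := sub_mem (hmem _ hl) (hmem l₀ hl₀)
      have h1' : (t - l₀.1)⁻¹ ∈ R := hd (List.mem_toFinset.2 (List.mem_map.2 ⟨_, hl, rfl⟩))
      rw [hd', show (mulTerm (t, e, ε) b).1 = t - l₀.1 from (sub_eq_add_neg _ _).symm]
      exact rOf_ne_zero ρ h1 h1' (sub_ne_zero.2 hne)
    have hd0 : t = l₀.1 → d = 0 := fun he => by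
      rw [hd', show (mulTerm (t, e, ε) b).1 = 0 by simp [mulTerm, hb, he], rOf_zero]
    have hflat : ∀ c : K, ∑ s ∈ Finset.univ.erase (0 : K), ψ (s * c) =
        (((if c = 0 then (q : ℤ) else 0) - 1 : ℤ) : ℂ) := by
      intro c
      have := sum_char_mul hψ c
      rw [← Finset.add_sum_erase _ _ (Finset.mem_univ (0 : K)), zero_mul,
        AddChar.map_zero_eq_one] at this
      push_cast
      linear_combination this
    by_cases hpar : ε = l₀.2.2
    · -- no Gauss sum remains
      subst hpar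
      set e' : ℕ := e + (if l₀.2.2 then 1 else 0)
      have hmt : mulTerm (t, e, l₀.2.2) b = (t + -l₀.1, e', false) := by
        simp [mulTerm, hb, e']
      refine ⟨((if d = 0 then (q : ℤ) else 0) - 1) * (q : ℤ) ^ e', ?_, ?_, ?_⟩
      · have he : e' ≤ m := by
          simp only [e', hm]
          omega
        have hp : (q : ℤ) ^ e' ≤ (q : ℤ) ^ m := pow_le_pow_right₀ (by omega) he
        have hp0 : (0 : ℤ) < (q : ℤ) ^ e' := pow_pos (by omega) _
        split_ifs
        · nlinarith [show (1 : ℤ) ≤ q by omega]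
        · linarith
      · intro hll
        have h1 := congrArg Prod.fst hll
        have h2 := congrArg (fun l => l.2.1) hll
        simp only at h1 h2
        rw [if_pos (hd0 h1)]
        simp [e', hm, h2]
      · rw [hd', hmt]
        simp only [termVal, Bool.false_eq_true, if_false, mul_one]
        rw [← Finset.sum_mul, hflat]
        push_cast
        ring
    · -- one Gauss sum remains
      have hmt : mulTerm (t, e, ε) b = (t + -l₀.1, e, true) := by
        cases ε <;> cases h : l₀.2.2 <;> simp_all [mulTerm, hb]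
      set n : ℕ := (Finset.univ.filter fun u : K => u ^ 2 + d = 0).card with hn
      have hval : ∑ s ∈ Finset.univ.erase (0 : K), termVal ρ ψ s (mulTerm (t, e, ε) b) =
          (((q : ℤ) ^ e * ((q : ℤ) * n - q) : ℤ) : ℂ) := by
        rw [hmt]
        simp only [termVal, ↓reduceIte]
        calc ∑ s ∈ Finset.univ.erase (0 : K),
              ψ (s * rOf ρ (t + -l₀.1)) * (q : ℂ) ^ e * quadSum ψ s
            = (q : ℂ) ^ e * ∑ u : K, ∑ s ∈ Finset.univ.erase (0 : K), ψ (s * (u ^ 2 + d)) := by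
              rw [Finset.sum_comm, Finset.mul_sum]
              refine Finset.sum_congr rfl fun s _ => ?_
              rw [quadSum, Finset.mul_sum, Finset.mul_sum]
              refine Finset.sum_congr rfl fun u _ => ?_
              rw [mul_add s, AddChar.map_add_eq_mul, hd', hmt]
              ring
          _ = _ := by
              simp only [hflat]
              rw [← Int.cast_sum, Finset.sum_sub_distrib, Finset.sum_ite, Finset.sum_const,
                Finset.sum_const_zero, add_zero, Finset.sum_const, Finset.card_univ, ← hn, ← hq]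
              simp only [nsmul_eq_mul, smul_eq_mul, mul_one, zsmul_eq_mul]
              push_cast
              ring
      refine ⟨_, ?_, fun hll => absurd (congrArg (fun l => l.2.2) hll) hpar, hval⟩
      by_cases ht : t = l₀.1
      · have hn1 : n = 1 := by
          rw [hn, Finset.card_eq_one]
          refine ⟨0, ?_⟩
          ext u
          simp [hd0 ht]
        rw [hn1]
        simp
      · have he : e + 1 ≤ m := by
          rw [hm]
          clear hval hn hmt hd0 hdt hd'
          revert hpar hw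
          generalize l₀.2.2 = ε₀
          intro hw hpar
          cases ε <;> cases ε₀
          · exact absurd rfl hpar
          · simp only [Bool.false_eq_true, if_false, if_true, add_zero] at hw ⊢
            omega
          · simp only [Bool.false_eq_true, if_false, if_true, add_zero] at hw ⊢
            omega
          · exact absurd rfl hpar
        have hp : (q : ℤ) ^ (e + 1) ≤ (q : ℤ) ^ m := pow_le_pow_right₀ (by omega) he
        have hn0 : (0 : ℤ) ≤ (q : ℤ) ^ e * ((q : ℤ) * n) :=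
          mul_nonneg (pow_nonneg (Int.natCast_nonneg q) e)
            (mul_nonneg (Int.natCast_nonneg q) (Int.natCast_nonneg n))
        rw [pow_succ] at hp
        nlinarith
  -- the sum over all the terms vanishes
  have hzero : ∑ s ∈ Finset.univ.erase (0 : K),
      (L.map fun l => termVal ρ ψ s (mulTerm l b)).sum = 0 := by
    refine Finset.sum_eq_zero fun s hs => ?_
    have hs0 := (Finset.mem_erase.1 hs).1
    rw [List.map_congr_left (g := fun l => termVal ρ ψ s l * termVal ρ ψ s b) fun l hl =>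
      termVal_mulTerm hψ hs0 ρ hI h2 (hmem l hl) hbR, List.sum_map_mul_right, hsum K ρ ψ hψ s hs0,
      zero_mul]
  have hex : ∀ L' : List (ℂ × ℕ × Bool), (∀ l ∈ L', l ∈ L) → ∃ v : ℤ,
      -((L'.length : ℤ) * (q : ℤ) ^ m) ≤ v ∧
      ∑ s ∈ Finset.univ.erase (0 : K), (L'.map fun l => termVal ρ ψ s (mulTerm l b)).sum = v := by
    intro L'
    induction L' with
    | nil => exact fun _ => ⟨0, by simp, by simp⟩
    | cons a L' ih =>
      intro ha
      obtain ⟨v, hv, hv'⟩ := ih fun l hl => ha l (List.mem_cons_of_mem a hl)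
      obtain ⟨w, hw, -, hw'⟩ := hterm a (ha a List.mem_cons_self)
      refine ⟨w + v, ?_, ?_⟩
      · push_cast [List.length_cons]
        linarith
      · simp only [List.map_cons, List.sum_cons, Finset.sum_add_distrib, hv', hw']
        push_cast
        ring
  obtain ⟨L₁, L₂, hsplit⟩ := List.append_of_mem hl₀
  obtain ⟨v₁, hv₁, hv₁'⟩ := hex L₁ fun l hl => by rw [hsplit]; exact List.mem_append_left _ hl
  obtain ⟨v₂, hv₂, hv₂'⟩ := hex L₂ fun l hl => by
    rw [hsplit]; exact List.mem_append_right _ (List.mem_cons_of_mem _ hl)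
  obtain ⟨w, -, hw, hw'⟩ := hterm l₀ hl₀
  rw [hsplit] at hzero
  simp only [List.map_append, List.map_cons, List.sum_append, List.sum_cons,
    Finset.sum_add_distrib, hv₁', hv₂', hw'] at hzero
  have hz : v₁ + (w + v₂) = 0 := by exact_mod_cast hzero
  have hlen : (L₁.length : ℤ) + L₂.length + 1 = N := by
    rw [hN, hsplit]
    simp
    ring
  rw [hw rfl] at hz
  have hpos : (0 : ℤ) < (q : ℤ) ^ m := pow_pos (by omega) _
  have hqN' : (N : ℤ) + 1 < q := by exact_mod_cast hqN
  nlinarith [mul_pos (show (0 : ℤ) < (q : ℤ) - N by linarith) hpos]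

end Vale.Agent.P295
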