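import Vale.Agent.P295.Sums
import Vale.Agent.P295.Nested
import Mathlib.LinearAlgebra.QuadraticForm.IsometryEquiv
import Mathlib.LinearAlgebra.Dimension.Constructions

/-!
Closure properties of the polynomials whose exponential sums are positive combinations of Gauss
terms.
-/

namespace Vale.Agent.P295

open MvPolynomial

variable {σ σ' τ : Type}

theorem eval_aeval_eq (A : σ → MvPolynomial τ ℂ) (y : τ → ℂ) (p : MvPolynomial σ ℂ) :
    eval y (aeval A p) = eval (fun i => eval y (A i)) p := by
  induction p using MvPolynomial.induction_on with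
  | C c => simp
  | add p q hp hq => rw [map_add, map_add, map_add, hp, hq]
  | mul_X p i hp => rw [map_mul, map_mul, map_mul, hp, aeval_X, eval_X]

theorem sum_map_flatMap {α β : Type} (l : List α) (g : α → List β) (v : β → ℂ) :
    ((l.flatMap g).map v).sum = (l.map fun a => ((g a).map v).sum).sum := by
  induction l with
  | nil => simp
  | cons a l ih => simp [List.flatMap_cons, ih]

theorem tame_of_isCoordinate [Fintype σ] {f : MvPolynomial σ ℂ} (h : IsCoordinate f) : Tame f := by
  classical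
  obtain ⟨φ, i, hi⟩ := id h
  refine ⟨[], autCoeffs φ, fun R hR => ⟨by simp, fun K _ _ ρ ψ hψ s hs f' hf => ?_⟩, fun _ => h⟩
  obtain ⟨hP, hQ⟩ := coeffs_subset_of_autCoeffs hR
  have hX : Lifts (X i : MvPolynomial σ R) (φ f) := by rw [hi]; exact map_X _ i
  rw [← expSum_of_equiv φ ρ ψ s hP hQ hf hX, expSum_X hψ hs]
  simp

/-- The term of a diagonal quadric. -/
noncomputable def diagTerm [Fintype σ] (t : ℂ) (J : Finset σ) : ℂ × ℕ × Bool :=
  (t, J.card / 2 + (Fintype.card σ - J.card), decide (J.card % 2 = 1))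

theorem expSum_diag [Fintype σ] {R : Subring ℂ} {K : Type} [Field K] [Fintype K] (t : ℂ)
    (J : Finset σ) (ht : t ∈ R) (hI : Complex.I ∈ R) (h2 : (2 : ℂ)⁻¹ ∈ R) (ρ : R →+* K)
    {ψ : AddChar K ℂ} (hψ : ψ ≠ 1) {s : K} (hs : s ≠ 0) (f' : MvPolynomial σ R)
    (hf : Lifts f' (C t + ∑ i ∈ J, (X i : MvPolynomial σ ℂ) ^ 2)) :
    expSum ρ ψ s f' = termVal ρ ψ s (diagTerm t J) := by
  classical
  have hf' : f' = C ⟨t, ht⟩ + ∑ i ∈ J, X i ^ 2 := hf.unique (by
    show map R.subtype _ = _
    simp [map_X])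
  subst hf'
  rw [expSum_eq]
  have hev : ∀ z : σ → K, ψ (s * eval₂ ρ z (C ⟨t, ht⟩ + ∑ i ∈ J, X i ^ 2)) =
      ψ (s * rOf ρ t) * ∏ i, (if i ∈ J then ψ (s * z i ^ 2) else 1) := by
    intro z
    rw [eval₂_add, eval₂_C, eval₂_sum, mul_add, AddChar.map_add_eq_mul, rOf_of_mem ρ ht,
      Finset.prod_ite_mem, Finset.univ_inter, Finset.mul_sum]
    congr 1
    have e : ∀ (J' : Finset σ) (g : σ → K), ψ (∑ x ∈ J', g x) = ∏ x ∈ J', ψ (g x) := by
      intro J' g
      induction J' using Finset.induction_on with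
      | empty => simp [AddChar.map_zero_eq_one]
      | @insert a J ha ih =>
        rw [Finset.sum_insert ha, Finset.prod_insert ha, AddChar.map_add_eq_mul, ih]
    rw [e]
    simp [eval₂_pow]
  simp only [hev, ← Finset.mul_sum]
  rw [← Fintype.prod_sum fun i (u : K) => if i ∈ J then ψ (s * u ^ 2) else 1]
  have hi : ∀ i, ∑ u : K, (if i ∈ J then ψ (s * u ^ 2) else 1) =
      if i ∈ J then quadSum ψ s else (Fintype.card K : ℂ) := fun i => by
    split_ifs <;> simp [quadSum]
  simp only [hi, Finset.prod_ite, Finset.prod_const, Finset.filter_mem_eq_inter, Finset.univ_inter]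
  rw [show (Finset.univ.filter fun i => i ∉ J).card = Fintype.card σ - J.card by
    rw [Finset.filter_not, Finset.filter_mem_eq_inter, Finset.univ_inter,
      Finset.card_sdiff_of_subset (Finset.subset_univ J), Finset.card_univ]]
  have hpow : ∀ j : ℕ, quadSum ψ s ^ j = (Fintype.card K : ℂ) ^ (j / 2) *
      if decide (j % 2 = 1) then quadSum ψ s else 1 := by
    intro j
    conv_lhs => rw [← Nat.div_add_mod j 2, pow_add, pow_mul, sq, gauss_sq hψ hs ρ hI h2]
    rcases Nat.mod_two_eq_zero_or_one j with h | h <;> simp [h]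
  simp only [diagTerm, termVal, hpow, pow_add]
  rcases Nat.mod_two_eq_zero_or_one J.card with h | h <;> simp [h] <;> ring

theorem tame_diag [Fintype σ] (t : ℂ) (J : Finset σ) :
    Tame (C t + ∑ i ∈ J, (X i : MvPolynomial σ ℂ) ^ 2) := by
  classical
  refine ⟨[diagTerm t J], {t, Complex.I, (2 : ℂ)⁻¹}, fun R hR => ?_, by simp⟩
  simp only [Finset.coe_insert, Finset.coe_singleton, Set.insert_subset_iff,
    Set.singleton_subset_iff] at hR
  obtain ⟨ht, hI, h2⟩ := hR
  refine ⟨by simpa [diagTerm] using ht, fun K _ _ ρ ψ hψ s hs f' hf => ?_⟩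
  rw [expSum_diag t J ht hI h2 ρ hψ hs f' hf]
  simp

theorem Tame.equiv [Fintype σ] (φ : MvPolynomial σ ℂ ≃ₐ[ℂ] MvPolynomial σ ℂ)
    {f : MvPolynomial σ ℂ} (h : Tame f) : Tame (φ f) := by
  classical
  obtain ⟨L, T, hT, hnil⟩ := h
  refine ⟨L, T ∪ autCoeffs φ ∪ f.coeffs, fun R hR => ?_, fun hL => isCoordinate_of_equiv φ.symm
    (by rw [AlgEquiv.symm_apply_apply]; exact hnil hL)⟩
  simp only [Finset.coe_union, Set.union_subset_iff] at hR
  obtain ⟨⟨hR1, hR2⟩, hR3⟩ := hR
  obtain ⟨hP, hQ⟩ := coeffs_subset_of_autCoeffs hR2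
  refine ⟨(hT R hR1).1, fun K _ _ ρ ψ hψ s hs g' hg => ?_⟩
  obtain ⟨f', hf⟩ := exists_lifts hR3
  rw [expSum_of_equiv φ ρ ψ s hP hQ hf hg]
  exact (hT R hR1).2 K ρ ψ hψ s hs f' hf

theorem Tame.rename [Fintype σ] [Fintype σ'] (e : σ ≃ σ') {f : MvPolynomial σ ℂ} (h : Tame f) :
    Tame (MvPolynomial.rename e f) := by
  classical
  obtain ⟨L, T, hT, hnil⟩ := h
  refine ⟨L, T ∪ f.coeffs, fun R hR => ?_, fun hL => isCoordinate_rename e (hnil hL)⟩
  simp only [Finset.coe_union, Set.union_subset_iff] at hR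
  refine ⟨(hT R hR.1).1, fun K _ _ ρ ψ hψ s hs g' hg => ?_⟩
  obtain ⟨f', hf⟩ := exists_lifts hR.2
  have : g' = MvPolynomial.rename e f' := hg.unique (by rw [Lifts, map_rename, hf])
  subst this
  rw [← (hT R hR.1).2 K ρ ψ hψ s hs f' hf, expSum_eq, expSum_eq]
  refine Fintype.sum_equiv (e.arrowCongr (Equiv.refl K)).symm _ _ fun z => ?_
  rw [eval₂_rename]
  rfl

theorem map_aeval_lifts {R : Subring ℂ} {g' : σ → MvPolynomial τ R} {g : σ → MvPolynomial τ ℂ}
    (hg : ∀ i, Lifts (g' i) (g i)) {f' : MvPolynomial σ R} {f : MvPolynomial σ ℂ}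
    (hf : Lifts f' f) : Lifts (aeval g' f') (aeval g f) :=
  Lifts.bind hg hf

/-- The exponential sum of a linear extension is carried by the roots. -/
theorem expSum_linExt [Fintype τ] {a : Polynomial ℂ} (ha : a ≠ 0) (b : MvPolynomial (Option τ) ℂ)
    {R : Subring ℂ} (hRS : (a.roots.toFinset : Set ℂ) ⊆ R) (hRb : (b.coeffs : Set ℂ) ⊆ R)
    (hlc : a.leadingCoeff ∈ R) (hlc' : a.leadingCoeff⁻¹ ∈ R)
    (hRd : ∀ p ∈ a.roots.toFinset ×ˢ a.roots.toFinset, (p.1 - p.2)⁻¹ ∈ R) {K : Type} [Field K]
    [Fintype K] (ρ : R →+* K) {ψ : AddChar K ℂ} (hψ : ψ ≠ 1) {s : K} (hs : s ≠ 0)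
    (f' : MvPolynomial (Option (Option τ)) R) (hf : Lifts f' (linExt a b)) (v : ℂ → ℂ)
    (hv : ∀ c ∈ a.roots.toFinset, ∀ g' : MvPolynomial τ R, Lifts g' (spec c b) →
      expSum ρ ψ s g' = v c) :
    expSum ρ ψ s f' = ∑ c ∈ a.roots.toFinset, v c * (Fintype.card K : ℂ) := by
  classical
  set S := a.roots.toFinset
  obtain ⟨b', hb'⟩ := exists_lifts hRb
  -- the coefficient over `R`
  set a' : Polynomial R := Polynomial.C ⟨a.leadingCoeff, hlc⟩ *
    (a.roots.attach.map fun c => Polynomial.X -
      Polynomial.C (⟨c.1, hRS (Multiset.mem_toFinset.2 c.2)⟩ : R)).prod with ha'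
  have hmap : a'.map R.subtype = a := by
    rw [ha', Polynomial.map_mul, Polynomial.map_C, Polynomial.map_multiset_prod,
      Multiset.map_map]
    conv_rhs => rw [(IsAlgClosed.splits a).eq_prod_roots, ← Multiset.attach_map_val a.roots,
      Multiset.map_map]
    congr 2
    refine Multiset.map_congr rfl fun c _ => ?_
    simp
  have hf' : f' = MvPolynomial.rename some (Polynomial.aeval (X none) a') * X none +
      MvPolynomial.rename some b' := by
    refine hf.unique ?_
    have e1 : MvPolynomial.map R.subtype (Polynomial.aeval (X none) a') =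
        toPar (τ := τ) a := by
      conv_rhs => rw [← hmap]
      induction a' using Polynomial.induction_on' with
      | add p q hp hq => simp [Polynomial.map_add, hp, hq]
      | monomial n r => simp [toPar, Polynomial.aeval_monomial, algebraMap_eq, map_X, map_C]
    show MvPolynomial.map R.subtype _ = _
    rw [map_add, map_mul, map_X, map_rename, map_rename, e1, hb']
    rfl
  subst hf'
  rw [expSum_eq,
    ← Equiv.sum_comp (Equiv.piOptionEquivProd (β := fun _ : Option (Option τ) => K)).symm,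
    Fintype.sum_prod_type, Finset.sum_comm]
  set A : K → K := fun x => Polynomial.eval₂ ρ x a' with hA
  have hev : ∀ (y : K) (w : Option τ → K),
      eval₂ ρ ((Equiv.piOptionEquivProd (β := fun _ : Option (Option τ) => K)).symm (y, w))
        (MvPolynomial.rename some (Polynomial.aeval (X none) a') * X none +
          MvPolynomial.rename some b') = A (w none) * y + eval₂ ρ w b' := by
    intro y w
    rw [eval₂_add, eval₂_mul, eval₂_X, eval₂_rename, eval₂_rename]
    have : ∀ p : Polynomial R, eval₂ ρ w (Polynomial.aeval (X none) p) =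
        Polynomial.eval₂ ρ (w none) p := fun p => by
      induction p using Polynomial.induction_on' with
      | add p q hp hq => simp [Polynomial.eval₂_add, hp, hq]
      | monomial n r => simp [Polynomial.aeval_monomial, algebraMap_eq, eval₂_pow,
          Polynomial.eval₂_monomial]
    exact congrArg₂ (· + ·) (congrArg₂ (· * ·) (this a') rfl) rfl
  have hinner : ∀ w : Option τ → K, ∑ y : K, ψ (s * (A (w none) * y + eval₂ ρ w b')) =
      ψ (s * eval₂ ρ w b') * if A (w none) = 0 then (Fintype.card K : ℂ) else 0 := by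
    intro w
    have h1 := sum_char_mul hψ (s * A (w none))
    simp only [mul_eq_zero, hs, false_or] at h1
    rw [← h1, Finset.mul_sum]
    refine Finset.sum_congr rfl fun y _ => ?_
    rw [mul_add, AddChar.map_add_eq_mul, mul_comm (ψ _)]
    congr 2
    ring
  simp only [hev, hinner]
  have hroot : ∀ x : K, A x = 0 ↔ x ∈ S.image (rOf ρ) := by
    intro x
    rw [hA]
    simp only [ha', Polynomial.eval₂_mul, Polynomial.eval₂_C, mul_eq_zero]
    rw [or_iff_right (by
      rw [← rOf_of_mem ρ hlc]
      exact rOf_ne_zero ρ hlc hlc' (Polynomial.leadingCoeff_ne_zero.2 ha))]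
    rw [Polynomial.eval₂_multiset_prod, Multiset.map_map, Multiset.prod_eq_zero_iff,
      Multiset.mem_map, Finset.mem_image]
    constructor
    · rintro ⟨c, -, hc⟩
      refine ⟨c.1, Multiset.mem_toFinset.2 c.2, ?_⟩
      rw [Function.comp_apply, Polynomial.eval₂_sub, Polynomial.eval₂_X, Polynomial.eval₂_C,
        sub_eq_zero] at hc
      rw [hc, rOf_of_mem ρ (hRS (Multiset.mem_toFinset.2 c.2))]
    · rintro ⟨c, hc, rfl⟩
      refine ⟨⟨c, Multiset.mem_toFinset.1 hc⟩, Multiset.mem_attach _ _, ?_⟩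
      rw [Function.comp_apply, Polynomial.eval₂_sub, Polynomial.eval₂_X, Polynomial.eval₂_C,
        sub_eq_zero, rOf_of_mem ρ (hRS hc)]
  have hinj : Set.InjOn (rOf ρ) S := by
    intro c hc d hd he
    by_contra hne
    refine rOf_ne_zero ρ (sub_mem (hRS hc) (hRS hd)) (hRd (c, d) (Finset.mem_product.2 ⟨hc, hd⟩))
      (sub_ne_zero.2 hne) ?_
    rw [rOf_sub ρ (hRS hc) (hRS hd), he, sub_self]
  rw [← Equiv.sum_comp (Equiv.piOptionEquivProd (β := fun _ : Option τ => K)).symm,
    Fintype.sum_prod_type]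
  have hnone : ∀ (x : K) (u : τ → K),
      (Equiv.piOptionEquivProd (β := fun _ : Option τ => K)).symm (x, u) none = x := fun x u => rfl
  simp only [hnone, hroot, mul_ite, mul_zero]
  rw [← Finset.sum_subset (Finset.subset_univ (S.image (rOf ρ)))
    (fun x _ hx => Finset.sum_eq_zero fun u _ => by simp [hx]), Finset.sum_image hinj]
  refine Finset.sum_congr rfl fun c hc => ?_
  have hc' : c ∈ R := hRS hc
  have hsp : Lifts (aeval (fun o => o.elim (C (⟨c, hc'⟩ : R)) X) b') (spec c b) :=
    map_aeval_lifts (fun o => by cases o <;> simp [Lifts, map_X, map_C]) hb'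
  have key := hv c hc _ hsp
  rw [expSum_eq] at key
  have hkey : ∀ u : τ → K, eval₂ ρ u (aeval (fun o => o.elim (C (⟨c, hc'⟩ : R)) X) b') =
      eval₂ ρ (fun o => o.elim (rOf ρ c) u) b' := fun u => by
    refine (eval₂Hom_bind₁ ρ u _ b').trans ?_
    show eval₂ ρ _ b' = _
    congr 1
    funext o
    cases o <;> simp [rOf_of_mem ρ hc']
  simp only [hkey] at key
  rw [← key, Finset.sum_mul]
  refine Finset.sum_congr rfl fun u _ => ?_
  rw [if_pos (Finset.mem_image.2 ⟨c, hc, rfl⟩)]
  rw [show (Equiv.piOptionEquivProd (β := fun _ : Option τ => K)).symm (rOf ρ c, u) =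
    (fun o => o.elim (rOf ρ c) u) from funext fun o => by cases o <;> rfl]

theorem Tame.linExt [Fintype τ] {a : Polynomial ℂ} (ha : a ≠ 0)
    (b : MvPolynomial (Option τ) ℂ) (h : ∀ c, a.IsRoot c → Tame (spec c b)) :
    Tame (linExt a b) := by
  classical
  set S := a.roots.toFinset
  have hS : ∀ c, c ∈ S ↔ a.IsRoot c := fun c => by simp [S, ha]
  choose L T hT hnil using fun c (hc : c ∈ S) => h c ((hS c).1 hc)
  let L' : ℂ → List (ℂ × ℕ × Bool) := fun c => if hc : c ∈ S then L c hc else []
  let T' : ℂ → Finset ℂ := fun c => if hc : c ∈ S then T c hc else ∅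
  refine ⟨S.toList.flatMap fun c => (L' c).map fun l => (l.1, l.2.1 + 1, l.2.2),
    S.biUnion T' ∪ S ∪ b.coeffs ∪ {a.leadingCoeff, a.leadingCoeff⁻¹} ∪
      (S ×ˢ S).image (fun p => (p.1 - p.2)⁻¹), fun R hR => ?_, fun hL => ?_⟩
  swap
  · refine isCoordinate_linExt ha b fun c hc => hnil c ((hS c).2 hc) ?_
    rw [List.flatMap_eq_nil_iff] at hL
    simpa [L', (hS c).2 hc] using hL c (Finset.mem_toList.2 ((hS c).2 hc))
  simp only [Finset.coe_union, Finset.coe_insert, Finset.coe_singleton, Finset.coe_image,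
    Set.union_subset_iff, Set.insert_subset_iff, Set.singleton_subset_iff,
    Set.image_subset_iff] at hR
  obtain ⟨⟨⟨⟨hRT, hRS⟩, hRb⟩, hlc, hlc'⟩, hRd⟩ := hR
  have hTc : ∀ c (hc : c ∈ S), (T c hc : Set ℂ) ⊆ R := fun c hc x hx => hRT (by
    simp only [Finset.coe_biUnion, Set.mem_iUnion, Finset.mem_coe]
    exact ⟨c, hc, by simpa [T', hc] using hx⟩)
  refine ⟨fun l hl => ?_, fun K _ _ ρ ψ hψ s hs f' hf => ?_⟩
  · simp only [List.mem_flatMap, Finset.mem_toList, List.mem_map] at hl
    obtain ⟨c, hc, l', hl', rfl⟩ := hl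
    exact (hT c hc R (hTc c hc)).1 l' (by simpa [L', hc] using hl')
  rw [expSum_linExt ha b hRS hRb hlc hlc' (fun p hp => hRd hp) ρ hψ hs f' hf
    (fun c => ((L' c).map (termVal ρ ψ s)).sum) fun c hc g' hg => by
      rw [(hT c hc R (hTc c hc)).2 K ρ ψ hψ s hs g' hg]
      rw [show L' c = L c hc from dif_pos hc],
    sum_map_flatMap, Finset.sum_map_toList]
  refine Finset.sum_congr rfl fun c _ => ?_
  rw [← List.sum_map_mul_right, List.map_map]
  exact congrArg List.sum (List.map_congr_left fun l _ => by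
    simp only [Function.comp_apply, termVal]
    ring)

/-- Sums in disjoint variables. -/
theorem Tame.add [Fintype σ] [Fintype τ] {f : MvPolynomial σ ℂ} {g : MvPolynomial τ ℂ}
    (hf : Tame f) (hg : Tame g) :
    Tame (MvPolynomial.rename Sum.inl f + MvPolynomial.rename Sum.inr g :
      MvPolynomial (σ ⊕ τ) ℂ) := by
  classical
  obtain ⟨L, T, hT, hnil⟩ := hf
  obtain ⟨M, U, hU, hnil'⟩ := hg
  refine ⟨L.flatMap fun a => M.map (mulTerm a),
    T ∪ U ∪ f.coeffs ∪ g.coeffs ∪ {Complex.I, (2 : ℂ)⁻¹}, fun R hR => ?_, fun hnilLM => ?_⟩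
  swap
  · have hcases : L = [] ∨ M = [] := by
      rcases L.eq_nil_or_concat with h | ⟨L₀, a, h⟩
      · exact Or.inl h
      · subst h
        rw [List.flatMap_eq_nil_iff] at hnilLM
        exact Or.inr (List.map_eq_nil_iff.1 (hnilLM a (by simp)))
    have key : ∀ {α β γ : Type} [Fintype α] [Fintype β] [Fintype γ] (i : α → γ) (j : β → γ),
        Function.Injective i → (∀ x, x ∈ Set.range i ↔ x ∉ Set.range j) →
        ∀ (p : MvPolynomial α ℂ) (r : MvPolynomial β ℂ), IsCoordinate p →
          IsCoordinate (MvPolynomial.rename i p + MvPolynomial.rename j r) := by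
      intro α β γ _ _ _ i j hi hij p r hp
      obtain ⟨φ, a, ha⟩ := hp
      let P : (MvPolynomial α ℂ →ₐ[ℂ] MvPolynomial α ℂ) → γ → MvPolynomial γ ℂ := fun e x =>
        if hx : x ∈ Set.range i then MvPolynomial.rename i (e (X hx.choose)) else X x
      have hPi : ∀ e q, aeval (P e) (MvPolynomial.rename i q) = MvPolynomial.rename i (e q) := by
        intro e q
        have : (aeval (P e)).comp (MvPolynomial.rename i) = (MvPolynomial.rename i).comp e :=
          algHom_ext fun a => by
            have hx : i a ∈ Set.range i := ⟨a, rfl⟩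
            show aeval (P e) (MvPolynomial.rename i (X a)) = MvPolynomial.rename i (e (X a))
            rw [rename_X, aeval_X]
            simp only [P, dif_pos hx, hi hx.choose_spec]
        exact DFunLike.congr_fun this q
      have hPj : ∀ e q, aeval (P e) (MvPolynomial.rename j q) = MvPolynomial.rename j q := by
        intro e q
        have : (aeval (P e)).comp (MvPolynomial.rename j) = MvPolynomial.rename j :=
          algHom_ext fun b => by
            have hx : j b ∉ Set.range i := fun h => (hij _).1 h ⟨b, rfl⟩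
            show aeval (P e) (MvPolynomial.rename j (X b)) = MvPolynomial.rename j (X b)
            rw [rename_X, aeval_X]
            exact dif_neg hx
        exact DFunLike.congr_fun this q
      have hcomp : ∀ e e', e.comp e' = AlgHom.id ℂ (MvPolynomial α ℂ) →
          (aeval (P e)).comp (aeval (P e')) = AlgHom.id ℂ (MvPolynomial γ ℂ) := by
        intro e e' hee
        refine algHom_ext fun x => ?_
        by_cases hx : x ∈ Set.range i
        · obtain ⟨a, rfl⟩ := hx
          rw [← rename_X (f := i) (R := ℂ) a]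
          simp only [AlgHom.comp_apply, hPi, AlgHom.id_apply]
          rw [show e (e' (X a)) = X a from DFunLike.congr_fun hee (X a)]
        · show aeval (P e) (aeval (P e') (X x)) = X x
          rw [aeval_X, show P e' x = X x from dif_neg hx, aeval_X]
          exact dif_neg hx
      let E : MvPolynomial γ ℂ ≃ₐ[ℂ] MvPolynomial γ ℂ :=
        AlgEquiv.ofAlgHom (aeval (P φ.toAlgHom)) (aeval (P φ.symm.toAlgHom))
          (hcomp _ _ (algHom_ext fun a => φ.apply_symm_apply (X a)))
          (hcomp _ _ (algHom_ext fun a => φ.symm_apply_apply (X a)))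
      refine isCoordinate_of_equiv E (isCoordinate_of_direction (v := Pi.single (i a) 1) ?_)
      have hE : E (MvPolynomial.rename i p + MvPolynomial.rename j r) =
          X (i a) + MvPolynomial.rename j r := by
        show aeval (P φ.toAlgHom) _ = _
        rw [map_add, hPi, hPj, show φ.toAlgHom p = X a from ha, rename_X]
      have h0 : pderiv (i a) (MvPolynomial.rename j r) = 0 :=
        pderiv_eq_zero_of_notMem_vars fun hv => by
          obtain ⟨b, -, hb⟩ := Finset.mem_image.1 (vars_rename j r hv)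
          exact (hij _).1 ⟨a, rfl⟩ ⟨b, hb⟩
      rw [hE, Finset.sum_eq_single (i a) (fun x _ h => by simp [Pi.single_eq_of_ne h]) (by simp),
        Pi.single_eq_same, map_add, h0, pderiv_X_self]
      simp
    rcases hcases with h | h
    · exact key Sum.inl Sum.inr Sum.inl_injective (fun x => by cases x <;> simp) f g (hnil h)
    · rw [add_comm]
      exact key Sum.inr Sum.inl Sum.inr_injective (fun x => by cases x <;> simp) g f (hnil' h)
  simp only [Finset.coe_union, Finset.coe_insert, Finset.coe_singleton,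
    Set.union_subset_iff, Set.insert_subset_iff, Set.singleton_subset_iff] at hR
  obtain ⟨⟨⟨⟨hRT, hRU⟩, hRf⟩, hRg⟩, hI, h2⟩ := hR
  obtain ⟨hmL, hTs⟩ := hT R hRT
  obtain ⟨hmM, hUs⟩ := hU R hRU
  refine ⟨fun l hl => ?_, fun K _ _ ρ ψ hψ s hs h' hh => ?_⟩
  · simp only [List.mem_flatMap, List.mem_map] at hl
    obtain ⟨a, ha, b, hb, rfl⟩ := hl
    exact add_mem (hmL a ha) (hmM b hb)
  obtain ⟨f', hf'⟩ := exists_lifts hRf
  obtain ⟨g', hg'⟩ := exists_lifts hRg
  have : h' = MvPolynomial.rename Sum.inl f' + MvPolynomial.rename Sum.inr g' := hh.unique (by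
    rw [Lifts, map_add, map_rename, map_rename, hf', hg'])
  subst this
  rw [sum_map_flatMap]
  have hprod : (L.map fun a => ((M.map (mulTerm a)).map (termVal ρ ψ s)).sum).sum =
      (L.map (termVal ρ ψ s)).sum * (M.map (termVal ρ ψ s)).sum := by
    rw [← List.sum_map_mul_right]
    refine congrArg List.sum (List.map_congr_left fun a ha => ?_)
    rw [List.map_map, ← List.sum_map_mul_left]
    exact congrArg List.sum (List.map_congr_left fun b hb =>
      termVal_mulTerm hψ hs ρ hI h2 (hmL a ha) (hmM b hb))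
  rw [hprod, ← hTs K ρ ψ hψ s hs f' hf', ← hUs K ρ ψ hψ s hs g' hg', expSum_eq, expSum_eq,
    expSum_eq, Finset.sum_mul_sum, ← Equiv.sum_comp (Equiv.sumArrowEquivProdArrow σ τ K).symm,
    Fintype.sum_prod_type]
  refine Finset.sum_congr rfl fun u _ => Finset.sum_congr rfl fun v _ => ?_
  rw [eval₂_add, eval₂_rename, eval₂_rename, mul_add, AddChar.map_add_eq_mul]
  rfl

/-- Polynomials of degree at most two. -/
theorem exists_diag [Fintype σ] (f : MvPolynomial σ ℂ) (hf : f.totalDegree ≤ 2) (a : σ → ℂ)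
    (ha : ∀ i, eval a (pderiv i f) = 0) :
    ∃ (φ : MvPolynomial σ ℂ ≃ₐ[ℂ] MvPolynomial σ ℂ) (J : Finset σ),
      φ (C (eval a f) + ∑ i ∈ J, X i ^ 2) = f := by
  classical
  -- translate the critical point to the origin
  set g : MvPolynomial σ ℂ := aeval (fun j => C (a j) + X j) f with hg
  set t := eval a f
  have hev : ∀ y, eval y g = eval (a + y) f := by
    intro y
    rw [hg, eval_aeval_eq]
    simp
    rfl
  have hd : ∀ i, eval 0 (pderiv i g) = 0 := by
    intro i
    rw [hg, chain_rule, map_sum]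
    refine Finset.sum_eq_zero fun j _ => ?_
    rw [map_mul]
    have : eval 0 (aeval (fun j => C (a j) + X j) (pderiv j f)) = eval a (pderiv j f) := by
      rw [eval_aeval_eq]
      simp
    rw [this, ha j, zero_mul]
  have hdeg : g.totalDegree ≤ 2 := by
    refine le_trans ?_ hf
    rw [hg, f.as_sum, map_sum, ← f.as_sum]
    refine (totalDegree_finsetSum _ _).trans (Finset.sup_le fun d hd => ?_)
    rw [aeval_monomial, Finsupp.prod, algebraMap_eq]
    refine (totalDegree_mul _ _).trans ?_
    rw [totalDegree_C, zero_add]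
    refine (totalDegree_finset_prod _ _).trans ?_
    refine le_trans (Finset.sum_le_sum fun j _ => ?_) (le_totalDegree hd)
    refine (totalDegree_pow _ _).trans ?_
    calc d j * (C (a j) + X j : MvPolynomial σ ℂ).totalDegree ≤ d j * 1 := by
          refine Nat.mul_le_mul_left _ ?_
          refine (totalDegree_add _ _).trans ?_
          simp
      _ = d j := mul_one _
  -- its quadratic part is a quadratic form
  have hspan : g - C t ∈ Submodule.span ℂ
      (Set.range fun p : σ × σ => (X p.1 * X p.2 : MvPolynomial σ ℂ)) := by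
    rw [MvPolynomial.as_sum (g - C t)]
    refine Submodule.sum_mem _ fun d hd' => ?_
    have hc : coeff d (g - C t) ≠ 0 := mem_support_iff.1 hd'
    have h0 : d ≠ 0 := by
      rintro rfl
      apply hc
      have := hev 0
      rw [add_zero, eval_zero] at this
      rw [coeff_sub, coeff_zero_C, ← constantCoeff_eq, this, sub_self]
    obtain ⟨i, hi⟩ : ∃ i, d i ≠ 0 := by
      by_contra! hall
      exact h0 (Finsupp.ext hall)
    have hcg : coeff d g ≠ 0 := by
      simpa [coeff_sub, coeff_C, Ne.symm h0] using hc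
    have hsplit : d - Finsupp.single i 1 + Finsupp.single i 1 = d :=
      tsub_add_cancel_of_le (Finsupp.single_le_iff.2 (Nat.one_le_iff_ne_zero.2 hi))
    set r := d - Finsupp.single i 1 with hr
    have hr1 : (r.sum fun _ e => e) = 1 := by
      have h2 := (le_totalDegree (mem_support_iff.2 hcg)).trans hdeg
      rw [← hsplit, Finsupp.sum_add_index' (fun _ => rfl) (fun _ _ _ => rfl),
        Finsupp.sum_single_index rfl] at h2
      have hne : r ≠ 0 := by
        intro hr0
        apply hcg
        rw [← hsplit, hr0, zero_add]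
        have := hd i
        rw [eval_zero, constantCoeff_eq, coeff_pderiv] at this
        simpa using this
      rcases Nat.eq_zero_or_pos (r.sum fun _ e => e) with h | h
      · exact absurd ((Finsupp.degree_eq_zero_iff r).1 h) hne
      · omega
    obtain ⟨k, hk⟩ := (Finsupp.sum_eq_one_iff r).1 hr1
    have hm : monomial d (coeff d (g - C t)) =
        coeff d (g - C t) • (X i * X k : MvPolynomial σ ℂ) := by
      simp only [X, monomial_mul, smul_monomial, mul_one, smul_eq_mul]
      rw [← hsplit, hk, add_comm]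
    rw [hm]
    exact Submodule.smul_mem _ _ (Submodule.subset_span ⟨(i, k), rfl⟩)
  obtain ⟨Q, hQ⟩ : ∃ Q : QuadraticForm ℂ (σ → ℂ), ∀ y, Q y = eval y (g - C t) := by
    revert hspan
    generalize g - C t = h
    intro hspan
    induction hspan using Submodule.span_induction with
    | mem p hp =>
      obtain ⟨⟨i, k⟩, rfl⟩ := hp
      exact ⟨QuadraticMap.linMulLin (LinearMap.proj i) (LinearMap.proj k), fun y => by simp⟩
    | zero => exact ⟨0, fun y => by simp⟩
    | add p q _ _ hp hq =>
      obtain ⟨Q1, hQ1⟩ := hp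
      obtain ⟨Q2, hQ2⟩ := hq
      exact ⟨Q1 + Q2, fun y => by simp [hQ1, hQ2]⟩
    | smul c p _ hp =>
      obtain ⟨Q1, hQ1⟩ := hp
      exact ⟨c • Q1, fun y => by simp [hQ1]⟩
  obtain ⟨w, ⟨e⟩⟩ := Q.equivalent_weightedSumSquares
  -- new coordinates
  let ε : σ ≃ Fin (Module.finrank ℂ (σ → ℂ)) :=
    (Fintype.equivFin σ).trans (finCongr (Module.finrank_fintype_fun_eq_card ℂ).symm)
  let J : Finset σ := Finset.univ.filter fun i => w (ε i) ≠ 0
  let r : σ → ℂ := fun i => if w (ε i) = 0 then 1 else w (ε i) ^ ((1 : ℂ) / 2)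
  have hr : ∀ i, r i ≠ 0 := fun i => by
    by_cases h : w (ε i) = 0 <;> simp [r, h, Complex.cpow_ne_zero_iff]
  have hr2 : ∀ i ∈ J, r i ^ 2 = w (ε i) := fun i hi => by
    have h : w (ε i) ≠ 0 := (Finset.mem_filter.1 hi).2
    simp only [r, if_neg h, one_div]
    exact Complex.cpow_nat_inv_pow _ two_ne_zero
  let u : σ → MvPolynomial σ ℂ := fun i =>
    ∑ k, C (r i * e (Pi.single k 1) (ε i)) * (X k - C (a k))
  let v : σ → MvPolynomial σ ℂ := fun k =>
    C (a k) + ∑ i, C ((r i)⁻¹ * e.toLinearEquiv.symm (Pi.single (ε i) 1) k) * X i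
  have heu : ∀ y i, eval y (u i) = r i * e (y - a) (ε i) := by
    intro y i
    have h1 : e (y - a) = ∑ k, (y - a) k • e (Pi.single k 1) := by
      conv_lhs => rw [pi_eq_sum_univ' (y - a)]
      exact (map_sum e.toLinearEquiv _ _).trans
        (Finset.sum_congr rfl fun k _ => e.toLinearEquiv.map_smul _ _)
    simp [u, h1, Finset.mul_sum, mul_comm, mul_assoc, mul_left_comm]
  have hev' : ∀ z k, eval z (v k) =
      a k + e.toLinearEquiv.symm (fun j => (r (ε.symm j))⁻¹ * z (ε.symm j)) k := by
    intro z k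
    have h1 : (fun j => (r (ε.symm j))⁻¹ * z (ε.symm j)) =
        ∑ i, ((r i)⁻¹ * z i) • (Pi.single (ε i) 1 : Fin (Module.finrank ℂ (σ → ℂ)) → ℂ) := by
      funext j
      rw [Finset.sum_apply, Finset.sum_eq_single (ε.symm j)]
      · simp
      · intro i _ hi
        rw [Pi.smul_apply, Pi.single_eq_of_ne (fun h => hi (by simp [h]))]
        simp
      · simp
    have h2 : e.toLinearEquiv.symm (fun j => (r (ε.symm j))⁻¹ * z (ε.symm j)) =
        ∑ i, ((r i)⁻¹ * z i) • e.toLinearEquiv.symm (Pi.single (ε i) 1) := by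
      rw [h1]
      exact (map_sum e.toLinearEquiv.symm _ _).trans
        (Finset.sum_congr rfl fun i _ => e.toLinearEquiv.symm.map_smul _ _)
    rw [h2, Finset.sum_apply]
    simp only [v, map_add, eval_C, map_sum, map_mul, eval_X, Pi.smul_apply, smul_eq_mul]
    congr 1
    refine Finset.sum_congr rfl fun i _ => ?_
    ring
  have hev2 : ∀ (A : σ → MvPolynomial σ ℂ) y p, eval y (aeval A p) =
      eval (fun i => eval y (A i)) p := eval_aeval_eq
  have huv : ∀ i, aeval v (u i) = X i := fun i => MvPolynomial.funext fun z => by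
    rw [hev2, heu, eval_X]
    have : (fun k => eval z (v k)) - a =
        e.toLinearEquiv.symm (fun j => (r (ε.symm j))⁻¹ * z (ε.symm j)) := by
      funext k
      simp [hev']
    rw [this, show e (e.toLinearEquiv.symm _) = _ from e.toLinearEquiv.apply_symm_apply _,
      Equiv.symm_apply_apply, mul_inv_cancel_left₀ (hr i)]
  have hvu : ∀ k, aeval u (v k) = X k := fun k => MvPolynomial.funext fun y => by
    rw [hev2, hev', eval_X]
    have : (fun j => (r (ε.symm j))⁻¹ * eval y (u (ε.symm j))) = e (y - a) := by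
      funext j
      rw [heu, inv_mul_cancel_left₀ (hr _), Equiv.apply_symm_apply]
    rw [this, show e.toLinearEquiv.symm (e (y - a)) = y - a from
      e.toLinearEquiv.symm_apply_apply _, Pi.sub_apply, add_sub_cancel]
  let φ : MvPolynomial σ ℂ ≃ₐ[ℂ] MvPolynomial σ ℂ := AlgEquiv.ofAlgHom (aeval u) (aeval v)
    (algHom_ext fun i => by
      rw [AlgHom.comp_apply, aeval_X, hvu, AlgHom.id_apply])
    (algHom_ext fun i => by rw [AlgHom.comp_apply, aeval_X, huv, AlgHom.id_apply])
  have hkey : φ (C t + ∑ i ∈ J, X i ^ 2) = f := by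
    show aeval u _ = f
    refine MvPolynomial.funext fun y => ?_
    rw [hev2, map_add, eval_C, map_sum]
    simp only [map_pow, eval_X, heu]
    have h2 : ∑ i ∈ J, (r i * e (y - a) (ε i)) ^ 2 = Q (y - a) := by
      rw [← e.map_app (y - a), QuadraticMap.weightedSumSquares_apply, ← Equiv.sum_comp ε]
      refine Finset.sum_subset_zero_on_sdiff (Finset.subset_univ _) (fun i hi => ?_) fun i hi => ?_
      · have : w (ε i) = 0 := by simpa [J] using hi
        simp [this]
      · rw [mul_pow, hr2 i hi, smul_eq_mul, sq]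
    rw [h2, hQ, map_sub, eval_C, hev, add_sub_cancel, add_sub_cancel]
  exact ⟨φ, J, hkey⟩

theorem tame_quadratic [Fintype σ] (f : MvPolynomial σ ℂ) (hf : f.totalDegree ≤ 2) : Tame f := by
  classical
  by_cases hn : NoCritical f
  · obtain ⟨v, hv⟩ := exists_direction hf hn
    exact tame_of_isCoordinate (isCoordinate_of_direction hv)
  obtain ⟨a, ha⟩ := not_forall.1 hn
  push Not at ha
  obtain ⟨φ, J, h⟩ := exists_diag f hf a ha
  rw [← h]
  exact (tame_diag _ J).equiv φ

end Vale.Agent.P295
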