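import Vale.Agent.P295.Tame
import Mathlib.Algebra.Polynomial.Bivariate
import Mathlib.Algebra.MvPolynomial.Equiv

/-!
Stable coordinates which are towers of quadrics are coordinates.
-/

namespace Vale.Agent.P295

open MvPolynomial

theorem Tower.tame {σ : Type} {f : MvPolynomial σ ℂ} (h : Tower f) :
    ∀ (i : Fintype σ), @Tame σ i f := by
  induction h with
  | @quadratic σ inst f h =>
    intro i
    rw [Subsingleton.elim i inst]
    exact @tame_quadratic σ inst f h
  | @linear τ inst a ha b _ ih =>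
    intro i
    rw [Subsingleton.elim i (@instFintypeOption _ (@instFintypeOption τ inst))]
    exact Tame.linExt ha b fun c hc => ih c hc inst
  | @disjointSum σ τ inst inst' f g _ _ ihf ihg =>
    intro i
    rw [Subsingleton.elim i (@instFintypeSum σ τ inst inst')]
    exact Tame.add (ihf inst) (ihg inst')
  | @reindex σ σ' inst e f _ ih =>
    intro i
    exact @Tame.rename σ σ' inst i e f (ih inst)
  | @change σ inst φ f _ ih =>
    intro i
    rw [Subsingleton.elim i inst]
    exact @Tame.equiv σ inst φ f (ih inst)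

/-- A tame stable coordinate is a coordinate. -/
theorem isCoordinate_of_stable_of_tame {n : ℕ} {f : MvPolynomial (Fin n) ℂ}
    (hs : IsStableCoordinate f) (hf : Tame f) : IsCoordinate f := by
  classical
  obtain ⟨L, T, hT, hnil⟩ := hf
  obtain ⟨m, -, φ, i, hi⟩ := hs
  refine hnil (eq_nil_of_sum_zero L (T ∪ f.coeffs ∪ autCoeffs φ) fun R hR => ?_)
  simp only [Finset.coe_union, Set.union_subset_iff] at hR
  obtain ⟨⟨hRT, hRf⟩, hRφ⟩ := hR
  obtain ⟨hmem, hsum⟩ := hT R hRT
  refine ⟨hmem, fun K _ _ ρ ψ hψ s hs => ?_⟩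
  obtain ⟨hP, hQ⟩ := coeffs_subset_of_autCoeffs hRφ
  obtain ⟨f', hf'⟩ := exists_lifts hRf
  rw [← hsum K ρ ψ hψ s hs f' hf']
  have hF : Lifts (rename (Sum.inl : Fin n → Fin n ⊕ Fin m) f') (rename Sum.inl f) := by
    rw [Lifts, map_rename, hf']
  have hX : Lifts (X i : MvPolynomial (Fin n ⊕ Fin m) R)
      (φ (rename (Sum.inl : Fin n → Fin n ⊕ Fin m) f)) := by
    rw [hi]
    exact map_X _ i
  have h0 := expSum_of_equiv φ ρ ψ s hP hQ hF hX
  rw [expSum_X hψ hs] at h0
  have h1 : expSum ρ ψ s (rename (Sum.inl : Fin n → Fin n ⊕ Fin m) f') =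
      (Fintype.card K : ℂ) ^ m * expSum ρ ψ s f' := by
    rw [expSum_eq, expSum_eq,
      ← Equiv.sum_comp (Equiv.sumArrowEquivProdArrow (Fin n) (Fin m) K).symm,
      Fintype.sum_prod_type, Finset.mul_sum]
    refine Finset.sum_congr rfl fun u _ => ?_
    have e : ∀ v : Fin m → K, eval₂ ρ ((Equiv.sumArrowEquivProdArrow (Fin n) (Fin m) K).symm (u, v))
        (rename (Sum.inl : Fin n → Fin n ⊕ Fin m) f') = eval₂ ρ u f' := fun v => by
      rw [eval₂_rename]
      rfl
    simp only [e, Finset.sum_const, Finset.card_univ, Fintype.card_fun, Fintype.card_fin,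
      nsmul_eq_mul, Nat.cast_pow]
  rw [h1, eq_comm, mul_eq_zero] at h0
  exact h0.resolve_left (pow_ne_zero _ (Nat.cast_ne_zero.2 Fintype.card_ne_zero))

/-- The image of a cylinder coordinate is a stable coordinate. -/
theorem isStableCoordinate_image {n : ℕ} {A : Type} [CommRing A] [Algebra ℂ A]
    (e : Polynomial A ≃ₐ[ℂ] MvPolynomial (Fin n) ℂ) : IsStableCoordinate (e Polynomial.X) := by
  refine ⟨1, le_rfl, ?_⟩
  let ι : Fin n ⊕ Fin 1 ≃ Option (Fin n) :=
    { toFun := fun x => x.elim some fun _ => none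
      invFun := fun o => o.elim (Sum.inr 0) Sum.inl
      left_inv := fun x => by
        rcases x with x | x
        · rfl
        · exact congrArg Sum.inr (Subsingleton.elim _ _)
      right_inv := fun o => by cases o <;> rfl }
  let W : MvPolynomial (Fin n ⊕ Fin 1) ℂ ≃ₐ[ℂ] Polynomial (MvPolynomial (Fin n) ℂ) :=
    (renameEquiv ℂ ι).trans (optionEquivLeft ℂ (Fin n))
  let Φ : MvPolynomial (Fin n ⊕ Fin 1) ℂ ≃ₐ[ℂ] MvPolynomial (Fin n ⊕ Fin 1) ℂ :=
    (((W.trans (Polynomial.mapAlgEquiv e.symm)).trans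
      ((Polynomial.Bivariate.swap (R := A)).restrictScalars ℂ)).trans
        (Polynomial.mapAlgEquiv e)).trans W.symm
  refine ⟨Φ, Sum.inr 0, ?_⟩
  have hW : ∀ g, W (rename Sum.inl g) = Polynomial.C g := by
    intro g
    show optionEquivLeft ℂ (Fin n) (rename ι (rename Sum.inl g)) = _
    rw [rename_rename]
    have : (optionEquivLeft ℂ (Fin n)).toAlgHom.comp (rename (ι ∘ Sum.inl)) =
        (Polynomial.CAlgHom : MvPolynomial (Fin n) ℂ →ₐ[ℂ] Polynomial (MvPolynomial (Fin n) ℂ)) :=
      algHom_ext fun x => by simp [ι]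
    exact DFunLike.congr_fun this g
  have hW' : W.symm Polynomial.X = X (Sum.inr 0) := by
    rw [AlgEquiv.symm_apply_eq]
    show _ = optionEquivLeft ℂ (Fin n) (rename ι (X (Sum.inr 0)))
    simp [ι]
  show W.symm (Polynomial.mapAlgEquiv e (Polynomial.Bivariate.swap
    (Polynomial.mapAlgEquiv e.symm (W (rename Sum.inl (e Polynomial.X)))))) = _
  rw [hW]
  simp [hW', Polynomial.Bivariate.swap_X]

end Vale.Agent.P295
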